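import Vale.Agent.P014Y.Defs

/-!
# P014Y: statements, arithmetic half
-/

open WeierstrassCurve
open scoped IntermediateField NumberTheorySymbols Classical
open Vale.Agent.P014 (tamagawa GQ Pbar act LocallyTrivial shaPrimary)
open Vale.Agent.P014Z (tw11)

noncomputable section

namespace Vale.Agent.P014Y

/-- the cubic -/
def ps {R : Type} [CommRing R] (D x : R) : R := 4 * x ^ 3 - 4 * D * x ^ 2 - 40 * D ^ 2 * x - 79 * D ^ 3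

/-- a quarter of its derivative -/
def pd {R : Type} [CommRing R] (D x : R) : R := 3 * x ^ 2 - 2 * D * x - 10 * D ^ 2

/-- **QR** -/
def QR : Prop := ∀ M : ℕ, Good M → J(11 | M) = 1 ∧ J(M | 11) = 1 ∧ Nat.Coprime M 22

/-! ## Descent -/

/-- points -/
abbrev Pt (D : ℤ) (K : Type) [Field K] [Algebra ℚ K] : Type := ((tw11 D)⁄K).toAffine.Point

section

variable (D : ℤ) {K : Type} [Field K] [Algebra ℚ K]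

/-- the descent map -/
def mu (e : K) : Pt D K → K
  | 0 => 1
  | .some x _ _ => if x = e then pd (D : K) e else x - e

/-- a square root of `mu e (P + P)` -/
def hf (e : K) : Pt D K → K
  | 0 => 1
  | .some x y _ => if 2 * y + 1 = 0 then (if x = e then 1 else -1) else
      if (x - e) ^ 2 = pd (D : K) e then x - e else ((x - e) ^ 2 - pd (D : K) e) / (2 * y + 1)

end

/-- a statement on a root of the cubic -/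
def ForE (P : ∀ (_ : ℤ) (K : Type) [Field K] [Algebra ℚ K], K → Prop) : Prop :=
  ∀ (D : ℤ) (K : Type) [Field K] [Algebra ℚ K] (e : K), D ≠ 0 → ps (D : K) e = 0 → P D K e

/-- **H1** -/
def H1 : Prop := ForE fun D K _ _ e => ∀ P : Pt D K, hf D e P ≠ 0 ∧ hf D e P ^ 2 = mu D e (P + P)

/-- **H2** -/
def H2 : Prop := ForE fun D K _ _ e => ∀ P T : Pt D K, T + T = 0 →
  hf D e (P + T) = hf D e T * hf D e P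

/-- **H3** -/
def H3 : Prop := ∀ (D : ℤ) (K K' : Type) [Field K] [Algebra ℚ K] [Field K'] [Algebra ℚ K']
  (φ : K →ₐ[ℚ] K') (e : K) (P : Pt D K),
  hf D (φ e) (Affine.Point.map (W' := tw11 D) φ P) = φ (hf D e P) ∧
  mu D (φ e) (Affine.Point.map (W' := tw11 D) φ P) = φ (mu D e P)

/-- **DIV** -/
def DIV : Prop := ∀ (D : ℤ) (K : Type) [Field K] [Algebra ℚ K] [IsAlgClosed K], D ≠ 0 →
  ∀ R : Pt D K, ∃ P : Pt D K, P + P = R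

/-- the algebraic closure of `ℚ` -/
abbrev Qb : Type := AlgebraicClosure ℚ

/-- the generator of the cubic field -/
def Rt {K : Type} [Field K] (t : K) : Prop := t ^ 3 - 2 * t ^ 2 + 2 = 0

/-- the root of the cubic -/
def th (D : ℤ) {K : Type} [Field K] (t : K) : K := D * ((4 * t ^ 2 - 7 * t) / 2)

/-- a cocycle -/
def Coc (D : ℤ) (c : GQ → Pbar (tw11 D)) : Prop := ∀ σ τ, c (σ * τ) = c σ + act (tw11 D) σ (c τ)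

/-- **KUM** -/
def KUM : Prop := ∀ (t : Qb) (χ : GQ → Qb), IsLocallyConstant χ →
  (∀ σ, σ t = t → χ σ = 1 ∨ χ σ = -1) →
  (∀ σ τ, σ t = t → τ t = t → χ (σ * τ) = χ σ * χ τ) →
  ∃ s : Qb, s ≠ 0 ∧ s ^ 2 ∈ ℚ⟮t⟯ ∧ ∀ σ : GQ, σ t = t → σ s = χ σ * s

/-- **INJ** -/
def INJ : Prop := ∀ (D : ℤ) (t : Qb) (c : GQ → Pbar (tw11 D)), D ≠ 0 → Rt t → Coc D c →
  (∀ σ, c σ + c σ = 0) → (∀ σ : GQ, σ t = t → hf D (th D t) (c σ) = 1) →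
  ∃ T : Pbar (tw11 D), T + T = 0 ∧ ∀ σ, c σ = act (tw11 D) σ T - T

/-- the image of a `p`-adic point -/
def up (D : ℤ) (p : ℕ) [Fact p.Prime] (R : Pt D ℚ_[p]) : Pt D (PadicAlgCl p) :=
  Affine.Point.map (W' := tw11 D) (IsScalarTower.toAlgHom ℚ ℚ_[p] (PadicAlgCl p)) R

/-- **LOCT** -/
def LOCT : Prop := ∀ (D : ℤ) (t s : Qb) (c : GQ → Pbar (tw11 D)) (p : ℕ) [Fact p.Prime]
  (ι : Qb →ₐ[ℚ] PadicAlgCl p), D ≠ 0 → Rt t → (∀ σ, c σ + c σ = 0) →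
  LocallyTrivial (tw11 D) ℚ_[p] c → s ≠ 0 →
  (∀ σ : GQ, σ t = t → σ s = hf D (th D t) (c σ) * s) →
  ∃ (R : Pt D ℚ_[p]) (z : PadicAlgCl p), z ∈ ℚ_[p]⟮ι t⟯ ∧ z ≠ 0 ∧
    ι (s ^ 2) * mu D (th D (ι t)) (up D p R) = z ^ 2

/-- the norm of the descent map is the norm of a square -/
def Val (D : ℤ) (p : ℕ) [Fact p.Prime] : Prop := ∀ (e : PadicAlgCl p) (x y : ℚ_[p]),
  ps (D : PadicAlgCl p) e = 0 → (2 * y + 1) ^ 2 = ps (D : ℚ_[p]) x →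
  ∃ z ∈ ℚ_[p]⟮e⟯, ‖if (x : PadicAlgCl p) = e then pd (D : PadicAlgCl p) e else x - e‖ = ‖z‖ ^ 2

/-- **VAL0** -/
def VAL0 : Prop := ∀ (D : ℤ) (p : ℕ) [Fact p.Prime], ¬ (p : ℤ) ∣ 22 * D → Val D p

/-- **VALM** -/
def VALM : Prop := ∀ (M p : ℕ) [Fact p.Prime], Good M → p ∣ M → Val (-11 * M) p

/-- **VAL2** -/
def VAL2 : Prop := ∀ D : ℤ, Odd D → Val D 2

instance fact11 : Fact (Nat.Prime 11) := ⟨by norm_num⟩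

/-- **N5** -/
def N5 : Prop := ∀ (M : ℕ) (x y : ℚ_[11]), J(M | 11) = 1 →
  (2 * y + 1) ^ 2 = ps ((-11 * M : ℤ) : ℚ_[11]) x → ‖x‖ < 1 →
  ‖x - 2 * ((-11 * M : ℤ) : ℚ_[11])‖ < 1 / 11

/-- **VAL11** -/
def VAL11 : Prop := ∀ M : ℕ, J(M | 11) = 1 → Val (-11 * M) 11

/-- **TWO** -/
def TWO : Prop := ∀ (D : ℤ) (t u z : PadicAlgCl 2), D % 4 = 1 → Rt t →
  (u = -1 ∨ u = 1 - t ∨ u = t - 1) → z ∈ ℚ_[2]⟮t⟯ → u * z ^ 2 ≠ 1 ∧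
  ∀ x y : ℚ_[2], (2 * y + 1) ^ 2 = ps (D : ℚ_[2]) x →
    (x : PadicAlgCl 2) ≠ th D t ∧ u * z ^ 2 ≠ x - th D t

/-- **PID** -/
def PID : Prop := ∀ t : Qb, Rt t → Module.finrank ℚ ℚ⟮t⟯ = 3 ∧
  IsPrincipalIdealRing (NumberField.RingOfIntegers ℚ⟮t⟯)

/-- **UNI** -/
def UNI : Prop := ∀ t : Qb, Rt t → (∀ w ∈ ℚ⟮t⟯, w ^ 2 ≠ 1 - t ∧ w ^ 2 ≠ t - 1) →
  ∀ ε : (NumberField.RingOfIntegers ℚ⟮t⟯)ˣ, ∃ w ∈ ℚ⟮t⟯, ∃ u : Qb,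
    (u = 1 ∨ u = -1 ∨ u = 1 - t ∨ u = t - 1) ∧
    (((ε : NumberField.RingOfIntegers ℚ⟮t⟯) : ℚ⟮t⟯) : Qb) = u * w ^ 2

/-- **EVN** -/
def EVN : Prop := ∀ t ξ : Qb, Rt t → ξ ∈ ℚ⟮t⟯ → ξ ≠ 0 →
  (∀ (p : ℕ) [Fact p.Prime] (ι : Qb →ₐ[ℚ] PadicAlgCl p), ∃ z ∈ ℚ_[p]⟮ι t⟯, ‖ι ξ‖ = ‖z‖ ^ 2) →
  ∃ w ∈ ℚ⟮t⟯, ∃ ε : (NumberField.RingOfIntegers ℚ⟮t⟯)ˣ,
    ξ = (((ε : NumberField.RingOfIntegers ℚ⟮t⟯) : ℚ⟮t⟯) : Qb) * w ^ 2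

/-- **SELC** -/
def SELC : Prop := ∀ (M : ℕ) (c : GQ → Pbar (tw11 (-11 * M))), Good M → IsLocallyConstant c →
  Coc (-11 * M) c → (∀ σ, c σ + c σ = 0) →
  (∀ (p : ℕ) [Fact p.Prime], LocallyTrivial (tw11 (-11 * M)) ℚ_[p] c) →
  ∃ T : Pbar (tw11 (-11 * M)), T + T = 0 ∧ ∀ σ, c σ = act (tw11 (-11 * M)) σ T - T

/-- **SHA** -/
def SHA : Prop := ∀ M : ℕ, Good M → Nat.card (shaPrimary (tw11 (-11 * M)) 2) = 1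

/-- **TWOD** -/
def TWOD : Prop := ∀ M : ℕ, Good M → ∀ R : (tw11 (-11 * M)).toAffine.Point,
  ∃ P : (tw11 (-11 * M)).toAffine.Point, P + P = R

/-- **TAM0** -/
def TAM0 : Prop := ∀ (M p : ℕ) [Fact p.Prime], Good M → p ≠ 11 → tamagawa (tw11 (-11 * M)) p = 1

/-- **MUH** -/
def MUH : Prop := ∀ (D : ℤ) (p : ℕ) [Fact p.Prime] (e : PadicAlgCl p) (R S : Pt D ℚ_[p]), D ≠ 0 →
  ps (D : PadicAlgCl p) e = 0 → mu D e (up D p R) ≠ 0 ∧ ∃ z ∈ ℚ_[p]⟮e⟯,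
    z ^ 2 = mu D e (up D p R) * mu D e (up D p S) * mu D e (up D p (R + S))

/-- **L11** -/
def L11 : Prop := ∀ M : ℕ, J(M | 11) = 1 → ∃ e : PadicAlgCl 11,
  ps ((-11 * M : ℤ) : PadicAlgCl 11) e = 0 ∧ (∀ z ∈ ℚ_[11]⟮e⟯, z ^ 2 ≠ -1) ∧
  (∃ x : ℚ_[11], ps ((-11 * M : ℤ) : ℚ_[11]) x = 0 ∧ ‖x‖ < 1) ∧
  ∀ x y : ℚ_[11], (2 * y + 1) ^ 2 = ps ((-11 * M : ℤ) : ℚ_[11]) x → (x : PadicAlgCl 11) ≠ e ∧
    ∃ z ∈ ℚ_[11]⟮e⟯, z ^ 2 = if ‖x‖ < 1 then e - x else x - e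

/-- **TAM11** -/
def TAM11 : Prop := ∀ M : ℕ, J(M | 11) = 1 → tamagawa (tw11 (-11 * M)) 11 = 2

end Vale.Agent.P014Y
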