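import Vale.Agent.P014Y.SkA
import Vale.Agent.P014Y.Sk

/-!
# P014Y: the lattice, the base case and the central value
-/

open WeierstrassCurve Complex Filter Topology
open scoped Real NumberTheorySymbols
open Vale.Agent.P014 (IsHasseWeil realPeriod)
open Vale.Agent.P004H (H792.a)
open Vale.Agent.P014Z

noncomputable section

namespace Vale.Agent.P014Y

theorem lam_of (hex : ∃ ex, Ex ex) (hP : PRF) (h1 : LAT1) (h2 : LAT2) (hV : LV) (hS : SYM) :
    LAM := by
  obtain ⟨ex, hex⟩ := hex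
  obtain ⟨C, w, hw⟩ := hP.1
  obtain ⟨n, hn, -, -, hpos⟩ := hV C w hw
  refine ⟨hpos, ex.ker, fun z hz h0 => ?_, fun a c hc hco h11 => ?_⟩
  · refine (h2 ex hex z.im).1 ?_
    have e : (z.im : ℂ) * I = z := by
      apply Complex.ext <;> simp [h0]
    rw [e]
    exact hz
  · obtain ⟨c', rfl⟩ := h11
    obtain ⟨u, v, huv⟩ := hco
    have hc' : c' ≠ 0 := by
      rintro rfl
      simp at hc
    have e := hS.gam C w hw ⟨a, -v, c', u, by linear_combination huv⟩ hc'
    simp only at e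
    rw [e]
    exact ⟨h1 ex hex _ _ (hw.mob _), _, hn _⟩

theorem sub_cj (z : ℂ) : z - (starRingEnd ℂ) z = ((2 * z.im : ℝ) : ℂ) * I := Complex.sub_conj z

theorem base_of (hP : PRF) (hH : PH) (hV : LV) (hS : SYM) (hE : HEC) : BASE := by
  obtain ⟨C, w, hw⟩ := hP.1
  obtain ⟨n, hn, hnV, hm, hpos⟩ := hV C w hw
  obtain ⟨hmul, -, hU, -, -⟩ := hH _ _ _ _ _ hw
  have n1 : n (G0.N.mul G0.N) = 0 := by rw [hm.mul, hm.N]; simp
  have s1 : sym (1 / 11) = 0 := by
    have := hS.gam C w hw G0.U (by simp [G0.U])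
    rw [hU] at this
    simpa [G0.U] using this
  have s22 : sym (1 / 22) = 0 := by
    have := hS.gam C w hw (G0.U.mul G0.U) (by simp [G0.U, G0.mul])
    rw [hmul, hU] at this
    have e : (((G0.U.mul G0.U).a : ℚ) / ((11 * (G0.U.mul G0.U).c : ℤ) : ℚ)) = 1 / 22 := by
      simp [G0.U, G0.mul]
    rw [e] at this
    simpa using this
  have sg : ∀ (a b d : ℤ) (h : a * d - b * (11 * 1) = 1),
      2 * (sym (a / 11)).im = n ⟨a, b, 1, d, h⟩ * Im0 := by
    intro a b d h
    have := hS.gam C w hw ⟨a, b, 1, d, h⟩ one_ne_zero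
    simp only [mul_one, Int.cast_ofNat] at this
    rw [this]
    exact hn _
  have inv : ∀ g h : G0, g.mul h.bar = G0.N.mul G0.N → n g = n h := by
    intro g h e
    have h1 := hm.mul g h.bar
    rw [e, n1, hm.odd] at h1
    linarith
  have i4 : 2 * (sym (4 / 11)).im = Im0 := by
    have := sg 4 1 3 (by norm_num)
    have e : n ⟨4, 1, 1, 3, by norm_num⟩ = 1 := hnV
    rw [e] at this
    simpa using this
  have i3 : 2 * (sym (3 / 11)).im = Im0 := by
    have := sg 3 1 4 (by norm_num)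
    have e := inv G0.V ⟨3, 1, 1, 4, by norm_num⟩ (by ext <;> simp [G0.mul, G0.bar, G0.V, G0.N])
    rw [← e, hnV] at this
    simpa using this
  have i26 : (sym (2 / 11)).im = (sym (6 / 11)).im := by
    have h2 := sg 2 1 6 (by norm_num)
    have h6 := sg 6 1 2 (by norm_num)
    have e := inv ⟨2, 1, 1, 6, by norm_num⟩ ⟨6, 1, 1, 2, by norm_num⟩
      (by ext <;> simp [G0.mul, G0.bar, G0.N])
    rw [← e] at h6
    push_cast at h2 h6
    linarith
  have hk := hE.good 2 Nat.prime_two (by norm_num) (1 / 11)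
  simp only [Finset.sum_range_succ, Finset.sum_range_zero, zero_add] at hk
  have e1 : ((1 / 11 + ((0 : ℕ) : ℚ)) / ((2 : ℕ) : ℚ) : ℚ) = 1 / 22 := by norm_num
  have e2 : ((1 / 11 + ((1 : ℕ) : ℚ)) / ((2 : ℕ) : ℚ) : ℚ) = 6 / 11 := by norm_num
  have e3 : (((2 : ℕ) : ℚ) * (1 / 11) : ℚ) = 2 / 11 := by norm_num
  rw [e1, e2, e3, s1, s22] at hk
  have hk' := congrArg Complex.im hk
  simp only [zero_add, mul_zero, zero_sub, Complex.neg_im] at hk'
  have i2 : (sym (2 / 11)).im = 0 := by linarith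
  have i6 : (sym (6 / 11)).im = 0 := by linarith
  have cj : ∀ a : ℚ, sym (1 - a) = (starRingEnd ℂ) (sym a) := by
    intro a
    rw [← hS.neg, ← hS.per (-a) 1]
    congr 1
    push_cast
    ring
  have c10 := cj (1 / 11)
  have c9 := cj (2 / 11)
  have c8 := cj (3 / 11)
  have c7 := cj (4 / 11)
  have c5 := cj (6 / 11)
  norm_num at c10 c9 c8 c7 c5
  have d2 := sub_cj (sym (2 / 11))
  have d3 := sub_cj (sym (3 / 11))
  have d4 := sub_cj (sym (4 / 11))
  have d6 := sub_cj (sym (6 / 11))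
  rw [i2] at d2
  rw [i3] at d3
  rw [i4] at d4
  rw [i6] at d6
  unfold BASE
  simp only [Finset.sum_range_succ, Finset.sum_range_zero]
  norm_num
  rw [c10, c9, c8, c7, c5, s1]
  simp only [map_zero, mul_zero, Complex.ofReal_zero, zero_mul] at d2 d6 ⊢
  linear_combination d3 + d4 - d2 - d6

theorem uF_sum {z : ℂ} (hz : 0 < z.im) :
    HasSum (fun n : ℕ => (H792.a n : ℂ) / n * P004H.H204.qq z ^ n) (uF z) := by
  have h := (P004H.H792.hasSum_Fc hz).summable.norm
  refine (Summable.of_norm_bounded h fun n => ?_).hasSum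
  rw [norm_mul, norm_mul, norm_div]
  refine mul_le_mul_of_nonneg_right ?_ (norm_nonneg _)
  rcases Nat.eq_zero_or_pos n with rfl | hn
  · simp
  · refine div_le_self (norm_nonneg _) ?_
    rw [Complex.norm_natCast]
    exact_mod_cast hn

theorem tw_sum (hG : GAU) {m : ℕ} (hs : Squarefree m) (h4 : m % 4 = 3) {y : ℝ} (hy : 0 < y) :
    ∑ b ∈ Finset.range m, (chi m b : ℂ) * uF ((((b : ℚ) / m : ℚ) : ℂ) + y * I) =
      gs m * ∑' n : ℕ, (chi m n * H792.a n / n : ℂ) * cexp (-(2 * π * n * y)) := by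
  have h1 : HasSum (fun n : ℕ => ∑ b ∈ Finset.range m, (chi m b : ℂ) * ((H792.a n : ℂ) / n *
      P004H.H204.qq ((((b : ℚ) / m : ℚ) : ℂ) + y * I) ^ n))
      (∑ b ∈ Finset.range m, (chi m b : ℂ) * uF ((((b : ℚ) / m : ℚ) : ℂ) + y * I)) :=
    hasSum_sum fun b _ => (uF_sum (by simpa using hy)).mul_left _
  rw [← h1.tsum_eq, ← tsum_mul_left]
  refine tsum_congr fun n => ?_
  have h2 := (hG m hs h4).2 n
  have h3 : ∀ b : ℕ, P004H.H204.qq ((((b : ℚ) / m : ℚ) : ℂ) + y * I) ^ n =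
      cexp (2 * π * I * (b * n) / m) * cexp (-(2 * π * n * y)) := by
    intro b
    unfold P004H.H204.qq
    rw [← Complex.exp_nat_mul, ← Complex.exp_add]
    congr 1
    push_cast
    linear_combination (2 * π * n * y : ℂ) * Complex.I_mul_I
  simp only [h3]
  calc _ = (∑ b ∈ Finset.range m, (chi m b : ℂ) * cexp (2 * π * I * (b * n) / m)) *
        ((H792.a n : ℂ) / n * cexp (-(2 * π * n * y))) := by
        rw [Finset.sum_mul]
        refine Finset.sum_congr rfl fun b _ => ?_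
        ring
    _ = _ := by
        rw [h2]
        ring

theorem ana_of (hG : GAU) (hL : LF) (hM : MEL) (hR : RP) (hS : SYM) (hQ : QR) (hA : LAM)
    (hN : GEN) : ANA := by
  intro M hM'
  obtain ⟨-, -, hco⟩ := hQ M hM'
  have h11 : Nat.Coprime 11 M := (Nat.Coprime.coprime_dvd_right (by norm_num : 11 ∣ 22) hco).symm
  have hs : Squarefree (11 * M) :=
    Nat.squarefree_mul_iff.2 ⟨h11, (by norm_num : Nat.Prime 11).prime.squarefree, hM'.1⟩
  have h4 : (11 * M) % 4 = 3 := by have := hM'.2.1; omega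
  have hpos : 0 < 11 * M := by omega
  have e : (-((11 * M : ℕ) : ℤ)) = -11 * M := by push_cast; ring
  have hr := hR (11 * M) hpos
  have hsq : (0 : ℝ) < √((11 * M : ℕ) : ℝ) := Real.sqrt_pos.2 (by exact_mod_cast hpos)
  rw [e] at hr
  obtain ⟨k, hk, hsum⟩ := hN M hM'
  have hg := (hG _ hs h4).1
  have hg2 : (gs (11 * M) - I * (√((11 * M : ℕ) : ℝ) : ℝ)) *
      (gs (11 * M) + I * (√((11 * M : ℕ) : ℝ) : ℝ)) = 0 := by
    have h5 : ((√((11 * M : ℕ) : ℝ) : ℝ) : ℂ) ^ 2 = ((11 * M : ℕ) : ℂ) := by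
      rw [← Complex.ofReal_pow, Real.sq_sqrt (Nat.cast_nonneg _)]
      simp
    linear_combination hg + h5 - ((√((11 * M : ℕ) : ℝ) : ℝ) : ℂ) ^ 2 * Complex.I_mul_I
  have key : ∀ L, IsHasseWeil (tw11 (-11 * M)) L → gs (11 * M) * L 1 = k * (I * Im0) := by
    intro L hL'
    rw [← e] at hL'
    have t1 := (hM _ hs h4 L hL').const_mul (gs (11 * M))
    have t2 : Tendsto (fun y : ℝ => ∑ b ∈ Finset.range (11 * M), (chi (11 * M) b : ℂ) *
        uF ((((b : ℚ) / (11 * M : ℕ) : ℚ) : ℂ) + y * I)) (𝓝[>] 0)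
        (𝓝 (∑ b ∈ Finset.range (11 * M), (chi (11 * M) b : ℂ) * sym (b / (11 * M : ℕ)))) :=
      tendsto_finsetSum _ fun b _ => (hS.lim _).const_mul _
    rw [← hsum]
    refine tendsto_nhds_unique t1 (t2.congr' ?_)
    filter_upwards [self_mem_nhdsWithin] with y hy
    exact tw_sum hG hs h4 hy
  have hsc : ((√((11 * M : ℕ) : ℝ) : ℝ) : ℂ) ≠ 0 := by exact_mod_cast hsq.ne'
  refine ⟨by rw [← e]; exact (hL _ hs h4).2, by rw [hr]; exact div_pos hA.1 hsq, ?_⟩
  rcases mul_eq_zero.1 hg2 with h | h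
  · refine ⟨k, hk, fun L hL' => ?_⟩
    have h6 := key L hL'
    rw [sub_eq_zero.1 h] at h6
    rw [hr, Complex.ofReal_div]
    field_simp
    exact mul_left_cancel₀ Complex.I_ne_zero (by linear_combination h6)
  · refine ⟨-k, by omega, fun L hL' => ?_⟩
    have h6 := key L hL'
    rw [eq_neg_of_add_eq_zero_left h] at h6
    rw [hr, Complex.ofReal_div]
    push_cast [-Nat.cast_mul]
    field_simp
    exact mul_left_cancel₀ Complex.I_ne_zero (by linear_combination -h6)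

end Vale.Agent.P014Y
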