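import Vale.Agent.P014Z.St

/-!
# P014Y: the admissible twisting parameters
-/

namespace Vale.Agent.P014Y

/-- `M` is squarefree, `1 mod 4`, and `X_0(11)` has no point of order two modulo the primes
dividing `M`. -/
def Good (M : ℕ) : Prop :=
  Squarefree M ∧ M % 4 = 1 ∧
    ∀ q : ℕ, q.Prime → q ∣ M → ∀ x : ZMod q, 4 * x ^ 3 - 4 * x ^ 2 - 40 * x - 79 ≠ 0

end Vale.Agent.P014Y
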