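import Vale.Agent.P014Y.SkA
import Vale.Agent.P014Y.Sk

/-!
# P014Y: the twisted sum of modular symbols
-/

open Complex Finset
open scoped NumberTheorySymbols
open Vale.Agent.P004H (H792.a)
open Vale.Agent.P014Z (Im0)

noncomputable section

namespace Vale.Agent.P014Y

namespace GenA

/-- the twisted sum -/
def S (n : ℕ) (ψ : ℕ → ℤ) : ℂ := ∑ a ∈ range n, (ψ a : ℂ) * sym (a / (n : ℕ))

/-- periodic functions -/
def Per {α : Type} (n : ℕ) (g : ℕ → α) : Prop := ∀ a k, g (a + n * k) = g a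

/-- removal of the multiples of `q` -/
def cut (q : ℕ) (ψ : ℕ → ℤ) (a : ℕ) : ℤ := if q ∣ a then 0 else ψ a

theorem sum_mul_range (n q : ℕ) (g : ℕ → ℂ) :
    ∑ a ∈ range (n * q), g a = ∑ b ∈ range n, ∑ j ∈ range q, g (b + n * j) := by
  induction q with
  | zero => simp
  | succ q ih =>
    rw [Nat.mul_succ, sum_range_add, ih, ← sum_add_distrib]
    refine sum_congr rfl fun b _ => ?_
    rw [sum_range_succ, add_comm (n * q) b]

theorem sum_perm {n q : ℕ} (hn : n ≠ 0) (h : Nat.Coprime q n) {g : ℕ → ℂ} (hg : Per n g) :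
    ∑ b ∈ range n, g (q * b) = ∑ b ∈ range n, g b := by
  have : NeZero n := ⟨hn⟩
  have h1 : ∀ a : ℕ, g ((a : ZMod n).val) = g a := fun a => by
    rw [ZMod.val_natCast]
    conv_rhs => rw [← Nat.mod_add_div a n]
    exact (hg _ _).symm
  have h2 : ∀ G : ZMod n → ℂ, ∑ b ∈ range n, G (b : ZMod n) = ∑ x, G x := fun G =>
    sum_nbij' (fun b => (b : ZMod n)) (fun x => x.val) (fun _ _ => mem_univ _)
      (fun x _ => mem_range.2 (ZMod.val_lt x))
      (fun b hb => ZMod.val_cast_of_lt (mem_range.1 hb)) (fun x _ => ZMod.natCast_zmod_val x)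
      fun _ _ => rfl
  calc ∑ b ∈ range n, g (q * b)
      = ∑ b ∈ range n, (fun x : ZMod n => g ((q : ZMod n) * x).val) (b : ZMod n) :=
        sum_congr rfl fun b _ => by rw [← h1, Nat.cast_mul]
    _ = ∑ x : ZMod n, g ((q : ZMod n) * x).val := h2 fun x => g ((q : ZMod n) * x).val
    _ = ∑ x : ZMod n, g x.val :=
        Equiv.sum_comp (Units.mulLeft (ZMod.unitOfCoprime q h)) fun x : ZMod n => g x.val
    _ = ∑ b ∈ range n, g ((b : ZMod n).val) := (h2 fun x => g x.val).symm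
    _ = _ := sum_congr rfl fun b _ => h1 b

theorem lift {n : ℕ} (hn : n ≠ 0) (q : ℕ) {ψ : ℕ → ℤ} (hψ : Per n ψ) :
    S (n * q) ψ = ∑ b ∈ range n, (ψ b : ℂ) * ∑ j ∈ range q, sym (((b : ℚ) / n + j) / q) := by
  rw [S, sum_mul_range]
  refine sum_congr rfl fun b _ => ?_
  rw [mul_sum]
  refine sum_congr rfl fun j _ => ?_
  have : (n : ℚ) ≠ 0 := Nat.cast_ne_zero.2 hn
  rw [hψ, show (((b + n * j : ℕ) : ℚ) / (n * q : ℕ)) = ((b : ℚ) / n + j) / q by
    push_cast
    rw [div_add' _ _ _ this, div_div, mul_comm (j : ℚ)]]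

theorem s_cut (n : ℕ) {q : ℕ} (hq : q ≠ 0) {ψ : ℕ → ℤ} {u : ℤ} (hu : ∀ a, ψ (q * a) = u * ψ a) :
    S (n * q) (cut q ψ) = S (n * q) ψ - u * S n ψ := by
  have h1 : ∑ a ∈ range (n * q), ((if q ∣ a then ψ a else 0 : ℤ) : ℂ) * sym (a / (n * q : ℕ)) =
      u * S n ψ := by
    rw [show range (n * q) = range (q * n) by rw [mul_comm], sum_mul_range,
      sum_eq_single_of_mem 0 (mem_range.2 (Nat.pos_of_ne_zero hq)), S, mul_sum]
    · refine sum_congr rfl fun j _ => ?_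
      have : (q : ℚ) ≠ 0 := Nat.cast_ne_zero.2 hq
      rw [zero_add, if_pos (dvd_mul_right q j), hu, show (((q * j : ℕ) : ℚ) / (n * q : ℕ)) =
        (j : ℚ) / n by push_cast; rw [mul_comm (q : ℚ), mul_div_mul_right _ _ this]]
      push_cast
      ring
    · intro b hb hb0
      refine sum_eq_zero fun j _ => ?_
      rw [if_neg, Int.cast_zero, zero_mul]
      intro h
      exact hb0 (Nat.eq_zero_of_dvd_of_lt ((Nat.dvd_add_left (dvd_mul_right q j)).1 h)
        (mem_range.1 hb))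
  rw [← h1, S, S, ← sum_sub_distrib]
  refine sum_congr rfl fun a _ => ?_
  rw [cut]
  split_ifs <;> simp

theorem step_el (hH : HEC) {n : ℕ} (hn : n ≠ 0) {ψ : ℕ → ℤ} (hψ : Per n ψ)
    (hu : ∀ a, ψ (11 * a) = ψ a) : S (n * 11) (cut 11 ψ) = 0 := by
  rw [s_cut n (by norm_num) (u := 1) (fun a => by rw [hu, one_mul]), lift hn 11 hψ, Int.cast_one,
    one_mul, S, sub_eq_zero]
  refine sum_congr rfl fun b _ => ?_
  rw [← hH.el ((b : ℚ) / n)]
  rfl

theorem step_good (hS : SYM) (hH : HEC) {n q : ℕ} (hn : n ≠ 0) (hq : q.Prime) (h11 : q ≠ 11)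
    (hc : Nat.Coprime q n) {ψ : ℕ → ℤ} (hψ : Per n ψ) {u : ℤ} (hu : ∀ a, ψ (q * a) = u * ψ a)
    (hu1 : u * u = 1) : S (n * q) (cut q ψ) = (H792.a q - 2 * u : ℤ) * S n ψ := by
  have hn' : (n : ℚ) ≠ 0 := Nat.cast_ne_zero.2 hn
  have h1 : ∑ b ∈ range n, (ψ (q * b) : ℂ) * sym ((q * b : ℕ) / n) = S n ψ :=
    sum_perm hn hc (g := fun a => (ψ a : ℂ) * sym (a / n)) fun a k => by
      show (ψ (a + n * k) : ℂ) * sym ((a + n * k : ℕ) / n) = (ψ a : ℂ) * sym (a / n)
      rw [hψ, ← hS.per ((a : ℚ) / n) k]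
      congr 2
      push_cast
      rw [div_add' _ _ _ hn', mul_comm (k : ℚ)]
  have h2 : ∑ b ∈ range n, (ψ b : ℂ) * sym (q * ((b : ℚ) / n)) = u * S n ψ := by
    rw [← h1, mul_sum]
    refine sum_congr rfl fun b _ => ?_
    rw [hu, ← mul_assoc, ← Int.cast_mul, ← mul_assoc, hu1, one_mul, Nat.cast_mul, mul_div_assoc]
  rw [s_cut n hq.ne_zero hu, lift hn q hψ]
  simp only [hH.good q hq h11, mul_sub, sum_sub_distrib]
  rw [h2, sum_congr rfl fun b _ => mul_left_comm (ψ b : ℂ) (H792.a q : ℂ) _, ← mul_sum]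
  push_cast
  rw [← S]
  ring

theorem per_jac (n k : ℕ) : Per (n * k) fun a : ℕ => J(a | n) := fun a j =>
  jacobiSym.mod_left' (by push_cast; rw [mul_assoc, Int.add_mul_emod_self_left])

/-- the character modulo `11`, restricted to the integers prime to `M` -/
def ps0 (M a : ℕ) : ℤ := if Nat.Coprime a M then J(a | 11) else 0

theorem odd_mul (hS : SYM) (hH : HEC) (M : ℕ) : Squarefree M →
    (∀ q : ℕ, q.Prime → q ∣ M → q ≠ 11 ∧ Odd (H792.a q)) →
    ∃ k : ℤ, Odd k ∧ S (11 * M) (ps0 M) = k * S 11 fun a => J(a | 11) := by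
  induction M using induction_on_primes with
  | zero => exact fun h => absurd h not_squarefree_zero
  | one => exact fun _ _ => ⟨1, odd_one, by
      rw [Int.cast_one, one_mul, mul_one]
      exact congrArg (S 11) (funext fun a => if_pos (Nat.coprime_one_right a))⟩
  | prime_mul p M hp ih =>
    intro hsq hq
    obtain ⟨hc, -, hM⟩ := Nat.squarefree_mul_iff.1 hsq
    obtain ⟨k, hk, e⟩ := ih hM fun q h1 h2 => hq q h1 (h2.mul_left p)
    obtain ⟨h11, ho⟩ := hq p hp (dvd_mul_right p M)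
    have hc11 : Nat.Coprime p 11 := (Nat.coprime_primes hp (by norm_num)).2 h11
    have h1 : ps0 (p * M) = cut p (ps0 M) := funext fun a => by
      rw [ps0, cut, ps0]
      by_cases h : p ∣ a
      · rw [if_pos h, if_neg]
        exact fun h' => (hp.coprime_iff_not_dvd.1 (Nat.Coprime.coprime_mul_right_right h').symm) h
      · rw [if_neg h]
        refine if_congr ⟨fun h' => Nat.Coprime.coprime_mul_left_right h', fun h' => ?_⟩ rfl rfl
        exact Nat.Coprime.mul_right (hp.coprime_iff_not_dvd.2 h).symm h'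
    have h2 := step_good hS hH (n := 11 * M) (mul_ne_zero (by norm_num) hM.ne_zero) hp h11
      (Nat.Coprime.mul_right hc11 hc) (ψ := ps0 M) (u := J(p | 11)) (fun a j => by
        rw [ps0, ps0]
        refine if_congr ?_ (per_jac 11 M a j) rfl
        rw [mul_comm 11 M, mul_assoc]
        exact Nat.coprime_add_mul_left_left a M _) (fun a => by
        rw [ps0, ps0, Nat.cast_mul, jacobiSym.mul_left, mul_ite, mul_zero]
        exact if_congr ⟨fun h => Nat.Coprime.coprime_mul_left h, fun h => Nat.Coprime.mul_left hc h⟩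
          rfl rfl) (by
        rw [← sq]
        exact jacobiSym.sq_one (by exact_mod_cast hc11))
    refine ⟨(H792.a p - 2 * J(p | 11)) * k, (ho.sub_even (even_two_mul _)).mul hk, ?_⟩
    rw [h1, show 11 * (p * M) = 11 * M * p by ring, h2, e, Int.cast_mul (_ - _), mul_assoc]

theorem sum_half {N : ℕ} (hN : Odd N) {H : Finset ℕ} (h0 : ∀ a ∈ H, a ≤ N ∧ N - a ∈ H)
    (F : ℕ → ℂ) : ∑ a ∈ H, F a = ∑ a ∈ H.filter fun a => 2 * a < N, (F a + F (N - a)) := by
  rw [sum_add_distrib, ← sum_filter_add_sum_filter_not H fun a => 2 * a < N]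
  congr 1
  obtain ⟨r, hr⟩ := hN
  refine sum_nbij' (fun a => N - a) (fun a => N - a) (fun a ha => ?_) (fun a ha => ?_)
    (fun a ha => ?_) (fun a ha => ?_) fun a ha => ?_
  all_goals
    obtain ⟨h1, h2⟩ := mem_filter.1 ha
    obtain ⟨h3, h4⟩ := h0 a h1
  · exact mem_filter.2 ⟨h4, by omega⟩
  · exact mem_filter.2 ⟨h4, by omega⟩
  · exact Nat.sub_sub_self h3
  · exact Nat.sub_sub_self h3
  · rw [Nat.sub_sub_self h3]

theorem jac_sub {N n a : ℕ} (hn : Odd n) (h : n ∣ N) (ha : a ≤ N) :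
    J((N - a : ℕ) | n) = ZMod.χ₄ n * J(a | n) := by
  obtain ⟨k, rfl⟩ := h
  rw [← jacobiSym.neg _ hn]
  refine jacobiSym.mod_left' ?_
  rw [Nat.cast_sub ha, sub_eq_neg_add, Nat.cast_mul, Int.add_mul_emod_self_left]

end GenA

open GenA

theorem gen_of (hS : SYM) (hH : HEC) (hL : LAM) (hB : BASE) (hQ : QR) (hO : ODD) : GEN := by
  intro M hM
  obtain ⟨hq, -, hc⟩ := hQ M hM
  obtain ⟨hsq, h4, hr⟩ := hM
  obtain ⟨hI, Λ, hre, hΛ⟩ := hL
  have hM0 : M ≠ 0 := hsq.ne_zero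
  have : NeZero M := ⟨hM0⟩
  have hMo : Odd M := Nat.odd_iff.2 (by omega)
  obtain ⟨k, hk, e1⟩ := odd_mul hS hH M hsq fun q h1 h2 => by
    have h3 : ¬ q ∣ 22 := h1.coprime_iff_not_dvd.1 (Nat.Coprime.coprime_dvd_left h2 hc)
    exact ⟨fun h => h3 (h ▸ by norm_num), hO q h1 (fun h => h3 (h ▸ by norm_num)) (hr q h1 h2)⟩
  have e0 : (S 11 fun a => J(a | 11)) = 2 * (I * Im0) := hB
  have hp : Per M fun a : ℕ => J(a | M) := by simpa using per_jac M 1
  have h11 : ∀ a : ℕ, J((11 * a : ℕ) | M) = J(a | M) := fun a => by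
    rw [Nat.cast_mul, jacobiSym.mul_left, Nat.cast_ofNat, hq, one_mul]
  have e2 := step_el hH hM0 hp h11
  have e3 := step_el hH hM0 (ψ := fun a => J(a | M) ^ 2) (fun a j => congrArg (· ^ 2) (hp a j))
    fun a => congrArg (· ^ 2) (h11 a)
  rw [mul_comm M 11] at e2 e3
  set N := 11 * M with hN
  have hN0 : (N : ℚ) ≠ 0 := Nat.cast_ne_zero.2 (mul_ne_zero (by norm_num) hM0)
  set H := (range N).filter fun a : ℕ => ¬ 11 ∣ a ∧ J(a | M) = 1 with hH'
  have tri : ∀ a : ℕ, (J(a | M) = 0 ∧ ¬ Nat.Coprime a M) ∨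
      ((J(a | M) = 1 ∨ J(a | M) = -1) ∧ Nat.Coprime a M) := fun a => by
    by_cases h : Nat.Coprime a M
    · exact Or.inr ⟨jacobiSym.eq_one_or_neg_one (by exact_mod_cast h), h⟩
    · exact Or.inl ⟨jacobiSym.eq_zero_iff_not_coprime.2 (by exact_mod_cast h), h⟩
  have f1 : ∑ a ∈ H, sym (a / N) = 0 := by
    have : 2 * ∑ a ∈ H, sym (a / N) =
        S N (cut 11 fun a => J(a | M)) + S N (cut 11 fun a => J(a | M) ^ 2) := by
      rw [hH', sum_filter, mul_sum, S, S, ← sum_add_distrib]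
      refine sum_congr rfl fun a _ => ?_
      rw [cut, cut]
      by_cases h : 11 ∣ a
      · simp [h]
      · rcases jacobiSym.trichotomy a M with h1 | h1 | h1 <;> simp [h, h1, two_mul]
    rw [e2, e3, add_zero] at this
    exact (mul_eq_zero.1 this).resolve_left two_ne_zero
  have f2 : ∑ a ∈ range N, (J(a | N) : ℂ) * sym (a / N) + S N (ps0 M) =
      2 * ∑ a ∈ H, (J(a | 11) : ℂ) * sym (a / N) := by
    rw [hH', sum_filter, mul_sum, S, ← sum_add_distrib]
    refine sum_congr rfl fun a _ => ?_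
    rw [ps0, show J(a | N) = J(a | 11) * J(a | M) from jacobiSym.mul_right _ 11 M]
    by_cases h : 11 ∣ a
    · have h1 : J(a | 11) = 0 := jacobiSym.eq_zero_iff_not_coprime.2 fun h' =>
        (Nat.Prime.coprime_iff_not_dvd (by norm_num)).1
          (Nat.Coprime.symm (by exact_mod_cast h') : Nat.Coprime 11 a) h
      simp [h1]
    · rcases tri a with ⟨h1, h2⟩ | ⟨h1 | h1, h2⟩
      · rw [if_neg h2, if_neg (by simp [h1]), h1]
        simp
      · rw [if_pos h2, if_pos ⟨h, h1⟩, h1]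
        push_cast
        ring
      · rw [if_pos h2, if_neg (by simp [h1]), h1]
        push_cast
        ring
  have hmem : ∀ a ∈ H, a ≤ N ∧ ¬ 11 ∣ a ∧ J(a | M) = 1 := fun a ha =>
    ⟨(mem_range.1 (mem_filter.1 ha).1).le, (mem_filter.1 ha).2⟩
  have hst : ∀ a ∈ H, a ≤ N ∧ N - a ∈ H := fun a ha => by
    obtain ⟨h1, h2, h3⟩ := hmem a ha
    refine ⟨h1, mem_filter.2 ⟨mem_range.2 ?_, fun h => h2 ?_, ?_⟩⟩
    · have : a ≠ 0 := fun h => h2 (h ▸ dvd_zero 11)
      omega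
    · omega
    · rw [jac_sub hMo (dvd_mul_left M 11) h1, ZMod.χ₄_nat_one_mod_four h4, one_mul, h3]
  have hcj : ∀ a ∈ H, sym ((N - a : ℕ) / N) = (starRingEnd ℂ) (sym (a / N)) := fun a ha => by
    rw [← hS.neg, ← hS.per (-((a : ℚ) / N)) 1, Nat.cast_sub (hmem a ha).1, sub_div, div_self hN0,
      Int.cast_one, sub_eq_neg_add]
  have hc11 : ∀ a ∈ H, Nat.Coprime a 11 := fun a ha =>
    ((Nat.Prime.coprime_iff_not_dvd (by norm_num)).2 (hmem a ha).2.1).symm
  have hl : ∀ a ∈ H, sym (a / N) ∈ Λ ∧ ∃ n : ℤ, 2 * (sym (a / N)).im = n * Im0 := fun a ha => by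
    have h1 : Nat.Coprime a M := by
      rcases tri a with ⟨h1, -⟩ | ⟨-, h2⟩
      · exact absurd ((hmem a ha).2.2.symm.trans h1) one_ne_zero
      · exact h2
    have := hΛ a N (by exact_mod_cast Nat.pos_of_ne_zero (Nat.cast_ne_zero.1 hN0))
      (Nat.isCoprime_iff_coprime.2 (Nat.Coprime.mul_right (hc11 a ha) h1))
      (by exact_mod_cast dvd_mul_right 11 M)
    rwa [Int.cast_natCast, Int.cast_natCast] at this
  choose! n hn using fun a ha => (hl a ha).2
  have hNo : Odd N := Odd.mul (by decide) hMo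
  set P := H.filter fun a => 2 * a < N
  have hP : ∀ a ∈ P, a ∈ H := fun a ha => (mem_filter.1 ha).1
  rw [sum_half hNo hst, sum_congr rfl fun a ha => by rw [hcj a (hP a ha)], sum_add_distrib,
    ← map_sum, add_conj, ofReal_eq_zero] at f1
  obtain ⟨j, hj⟩ := hre _ (Λ.sum_mem fun a ha => (hl a (hP a ha)).1)
    ((mul_eq_zero.1 f1).resolve_left two_ne_zero)
  have f3 : ∑ a ∈ P, n a = 2 * j := by
    have : ((∑ a ∈ P, n a : ℤ) : ℝ) * Im0 = (2 * j : ℤ) * Im0 := by
      push_cast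
      rw [mul_assoc, ← hj, im_sum, mul_sum, sum_mul]
      exact sum_congr rfl fun a ha => (hn a (hP a ha)).symm
    exact_mod_cast mul_right_cancel₀ hI.ne' this
  have f4 : ∑ a ∈ H, (J(a | 11) : ℂ) * sym (a / N) =
      (∑ a ∈ P, J(a | 11) * n a : ℤ) * (I * Im0) := by
    rw [sum_half hNo hst]
    push_cast
    rw [sum_mul]
    refine sum_congr rfl fun a ha => ?_
    have h1 := hcj a (hP a ha)
    have h2 := jac_sub (n := 11) (by decide) (dvd_mul_right 11 M) (hmem a (hP a ha)).1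
    rw [ZMod.χ₄_nat_three_mod_four (by norm_num)] at h2
    have h3 : ((2 * (sym (a / N)).im : ℝ) : ℂ) = (n a * Im0 : ℝ) := congrArg _ (hn a (hP a ha))
    rw [h1, h2]
    push_cast at h3 ⊢
    have h4 := sub_conj (sym (a / N))
    push_cast at h4
    linear_combination (J(a | 11) : ℂ) * h4 + (J(a | 11) : ℂ) * I * h3
  have f5 : Even (∑ a ∈ P, J(a | 11) * n a) := by
    have : ∑ a ∈ P, J(a | 11) * n a = 2 * j + ∑ a ∈ P, (J(a | 11) - 1) * n a := by
      rw [← f3, ← sum_add_distrib]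
      exact sum_congr rfl fun a _ => by ring
    rw [this]
    refine (even_two_mul j).add (even_sum _ fun a ha => Even.mul_right ?_ _)
    rcases jacobiSym.eq_one_or_neg_one (a := a) (b := 11) (by exact_mod_cast hc11 a (hP a ha))
      with h | h <;> rw [h] <;> decide
  obtain ⟨t, ht⟩ := f5
  obtain ⟨k', hk'⟩ := hk
  refine ⟨4 * t - 2 * k, by omega, ?_⟩
  rw [e1, e0, f4, ht] at f2
  push_cast at f2 ⊢
  linear_combination f2

end Vale.Agent.P014Y
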