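import Vale.Agent.P014Y.SkA
import Vale.Agent.P004H.H742.CoF

/-!
# P014Y: the Hecke relations of the modular symbols
-/

open Complex Filter Topology
open scoped Real
open Vale.Agent.P004H
open Vale.Agent.P004H.H204 (qq)
open Vale.Agent.P014Z (uF)

namespace Vale.Agent.P014Y

namespace HecAux

theorem hk : H181.Hk 11 H792.a :=
  H181.hk_of_dim (a := H792.a) (F := H792.F11) (fun τ => by
    refine (H792.hasSum_F τ).congr_fun fun n => ?_
    simp only [smul_eq_mul]
    congr 2
    unfold Function.Periodic.qParam H792.qq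
    congr 1
    push_cast
    ring) H792.a_one (fun h => H833.dim1 h)

theorem hs {z : ℂ} (hz : 0 < z.im) :
    HasSum (fun n : ℕ => (H792.a n : ℂ) / n * qq z ^ n) (uF z) := by
  refine Summable.hasSum (Summable.of_norm_bounded (H792.hasSum_Fc hz).summable.norm fun n => ?_)
  rw [norm_mul, norm_mul, norm_div, Complex.norm_natCast]
  refine mul_le_mul_of_nonneg_right ?_ (norm_nonneg _)
  rcases Nat.eq_zero_or_pos n with rfl | hn
  · simp
  · exact div_le_self (norm_nonneg _) (by exact_mod_cast hn)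

theorem reidx {p : ℕ} (hp : 0 < p) {f : ℕ → ℂ} {s : ℂ} :
    HasSum (fun n => f (p * n)) s ↔ HasSum (fun m => if p ∣ m then f m else 0) s := by
  have inj : Function.Injective (fun m : ℕ => p * m) := fun a b h => Nat.eq_of_mul_eq_mul_left hp h
  rw [← inj.hasSum_iff (f := fun m => if p ∣ m then f m else 0) fun x hx =>
    if_neg fun ⟨y, hy⟩ => hx ⟨y, hy.symm⟩]
  simp only [Function.comp_def, dvd_mul_right, if_true]

theorem hU {p : ℕ} (hp : p.Prime) {z : ℂ} (hz : 0 < z.im) :
    HasSum (fun n : ℕ => (H792.a (p * n) : ℂ) / n * qq z ^ n)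
      (∑ j ∈ Finset.range p, uF ((z + j) / p)) := by
  have hp0 : (p : ℂ) ≠ 0 := by exact_mod_cast hp.ne_zero
  have h1 : ∀ j ∈ Finset.range p, HasSum (fun m : ℕ => (H792.a m : ℂ) / m * qq (z / p) ^ m *
      cexp (2 * π * I * (m * (j : ℕ) / p))) (uF ((z + j) / p)) := fun j _ => by
    refine (hs (z := (z + j) / p) ?_).congr_fun fun m => ?_
    · rw [Complex.div_natCast_im]
      simpa using div_pos hz (Nat.cast_pos.2 hp.pos)
    · rw [mul_assoc, qq, qq, ← Complex.exp_nat_mul, ← Complex.exp_nat_mul, ← Complex.exp_add]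
      congr 2
      ring
  have h2 : HasSum (fun m : ℕ => if p ∣ m then (H792.a m : ℂ) / m * qq (z / p) ^ m * p else 0)
      (∑ j ∈ Finset.range p, uF ((z + j) / p)) :=
    (hasSum_sum h1).congr_fun fun m => by
      rw [← Finset.mul_sum, ← Fin.sum_univ_eq_sum_range
        (fun j => cexp (2 * π * I * (m * (j : ℕ) / p))), H181.sum_root p hp m]
      split_ifs <;> simp
  refine ((reidx hp.pos).2 h2).congr_fun fun n => ?_
  have : qq (z / p) ^ (p * n) = qq z ^ n := by
    rw [qq, qq, ← Complex.exp_nat_mul, ← Complex.exp_nat_mul]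
    congr 1
    push_cast
    field_simp
  rw [this]
  rcases Nat.eq_zero_or_pos n with rfl | hn
  · simp
  · have : (n : ℂ) ≠ 0 := by exact_mod_cast hn.ne'
    push_cast
    field_simp

theorem hV {p : ℕ} (hp : p.Prime) {z : ℂ} (hz : 0 < z.im) :
    HasSum (fun n : ℕ => if p ∣ n then (p * H792.a (n / p) : ℂ) / n * qq z ^ n else 0)
      (uF (p * z)) := by
  have hp0 : (p : ℂ) ≠ 0 := by exact_mod_cast hp.ne_zero
  refine (reidx hp.pos).1 ((hs (z := p * z) ?_).congr_fun fun n => ?_)
  · simpa using mul_pos (Nat.cast_pos.2 hp.pos : (0 : ℝ) < p) hz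
  · have : qq z ^ (p * n) = qq (p * z) ^ n := by
      rw [qq, qq, ← Complex.exp_nat_mul, ← Complex.exp_nat_mul]
      congr 1
      push_cast
      ring
    rw [this, Nat.mul_div_cancel_left _ hp.pos, Nat.cast_mul, mul_div_mul_left _ _ hp0]

theorem good {p : ℕ} (hp : p.Prime) (h11 : p ≠ 11) {z : ℂ} (hz : 0 < z.im) :
    ∑ j ∈ Finset.range p, uF ((z + j) / p) = H792.a p * uF z - uF (p * z) := by
  refine (hU hp hz).unique ((((hs hz).mul_left _).sub (hV hp hz)).congr_fun fun n => ?_)
  have h := congrArg (Int.cast : ℤ → ℂ) (hk.T p hp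
    (fun h => h11 ((Nat.prime_dvd_prime_iff_eq hp (by norm_num)).1 h)) n)
  split_ifs at h ⊢
  · push_cast at h
    linear_combination (qq z ^ n / n) * h
  · push_cast at h
    linear_combination (qq z ^ n / n) * h

theorem el {z : ℂ} (hz : 0 < z.im) :
    ∑ j ∈ Finset.range 11, uF ((z + j) / (11 : ℕ)) = uF z := by
  refine (hU (by norm_num) hz).unique ((hs hz).congr_fun fun n => ?_)
  obtain ⟨-, -, -, -, -, -, -, -, -, -, -, a11, -, -⟩ := H792.a_table
  rw [hk.U 11 (by norm_num) dvd_rfl, a11, one_mul]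

theorem scale {c : ℝ} (hc : 0 < c) : Tendsto (fun y : ℝ => c * y) (𝓝[>] 0) (𝓝[>] 0) := by
  refine tendsto_nhdsWithin_iff.2 ⟨?_, eventually_nhdsWithin_of_forall fun y hy => mul_pos hc hy⟩
  have : Tendsto (fun y : ℝ => c * y) (𝓝 0) (𝓝 (c * 0)) := (continuous_const_mul c).tendsto 0
  rw [mul_zero] at this
  exact this.mono_left nhdsWithin_le_nhds

theorem limU (h : SYM) {p : ℕ} (hp : 0 < p) (r : ℚ) :
    Tendsto (fun y : ℝ => ∑ j ∈ Finset.range p, uF (((r : ℂ) + y * I + j) / p)) (𝓝[>] 0)
      (𝓝 (∑ j ∈ Finset.range p, sym ((r + j) / p))) := by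
  refine tendsto_finsetSum _ fun j _ => ?_
  refine ((h.lim _).comp (scale (inv_pos.2 (Nat.cast_pos.2 hp : (0 : ℝ) < p)))).congr fun y => ?_
  simp only [Function.comp_apply]
  congr 1
  push_cast
  ring

theorem im_pos (r : ℚ) {y : ℝ} (hy : 0 < y) : 0 < ((r : ℂ) + y * I).im := by simpa using hy

end HecAux

open HecAux in
theorem hec_of (h : SYM) : HEC where
  good p hp h11 r := by
    have h1 : Tendsto (fun y : ℝ => uF (p * ((r : ℂ) + y * I))) (𝓝[>] 0) (𝓝 (sym (p * r))) := by
      refine ((h.lim _).comp (scale (Nat.cast_pos.2 hp.pos : (0 : ℝ) < p))).congr fun y => ?_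
      simp only [Function.comp_apply]
      congr 1
      push_cast
      ring
    refine tendsto_nhds_unique (limU h hp.pos r) ((((h.lim r).const_mul _).sub h1).congr' ?_)
    exact eventually_nhdsWithin_of_forall fun y hy => (good hp h11 (im_pos r hy)).symm
  el r := by
    have := tendsto_nhds_unique (limU h (p := 11) (by norm_num) r) ((h.lim r).congr'
      (eventually_nhdsWithin_of_forall fun y hy => (el (im_pos r hy)).symm))
    simpa using this

end Vale.Agent.P014Y
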