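import Vale.Agent.P014Y.Defs
import Vale.Agent.P004H.H742.CoF

/-!
# P014Y: there are infinitely many admissible `M`

If `4 q = a² + 11 b²` with `a`, `b` odd and `q ≠ 3` prime, then the coefficient `a_q` of
`η(z)² η(11 z)² ≡ η(2 z) η(22 z) mod 2` is odd by the pentagonal number theorem, so `X_0(11)` has
no point of order two mod `q`. An argument in the style of Euclid gives infinitely many such `q`.
-/

open Vale.Agent.P004H Vale.Agent.P004H.H792

namespace Vale.Agent.P014Y.Inf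

/-- the form `a x² + b x y + c y²` only represents numbers represented by `x² + x y + 3 y²` -/
def Rp (a b c : ℤ) : Prop :=
  ∀ x y : ℤ, ∃ X Y : ℤ, a * x ^ 2 + b * x * y + c * y ^ 2 = X ^ 2 + X * Y + 3 * Y ^ 2

theorem Rp.neg {a b c : ℤ} (h : Rp a (-b) c) : Rp a b c := fun x y => by
  obtain ⟨X, Y, e⟩ := h x (-y)
  exact ⟨X, Y, by linear_combination e⟩

theorem Rp.swap {a b c : ℤ} (h : Rp c b a) : Rp a b c := fun x y => by
  obtain ⟨X, Y, e⟩ := h y x
  exact ⟨X, Y, by linear_combination e⟩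

theorem Rp.shift {a b c : ℤ} (h : Rp a (b - 2 * a) (a - b + c)) : Rp a b c := fun x y => by
  obtain ⟨X, Y, e⟩ := h (x + y) y
  exact ⟨X, Y, by linear_combination e⟩

/-- the class number of discriminant `-11` is one -/
theorem red (n : ℕ) : ∀ a b c : ℤ, b.natAbs = n → 0 < a → b ^ 2 - 4 * a * c = -11 → Rp a b c := by
  induction n using Nat.strong_induction_on with
  | _ n ih =>
  have k1 : ∀ a b c : ℤ, b = n → 0 < a → a ≤ c → b ^ 2 - 4 * a * c = -11 → Rp a b c := by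
    intro a b c hb ha hc h
    by_cases h1 : a < b
    · exact (ih _ (by omega) _ _ _ rfl ha (by linear_combination h)).shift
    · have h2 : b ≤ 1 := by nlinarith
      have h3 : b = 0 ∨ b = 1 := by omega
      rcases h3 with rfl | rfl
      · have : 4 * (a * c) = 11 := by linear_combination -h
        omega
      · have h4 : a * c = 3 := by linarith
        have h5 : a = 1 := by nlinarith
        subst h5
        have h6 : c = 3 := by linear_combination h4
        subst h6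
        exact fun x y => ⟨x, y, by ring⟩
  have k2 : ∀ a b c : ℤ, b = n → 0 < a → b ^ 2 - 4 * a * c = -11 → Rp a b c := by
    intro a b c hb ha h
    rcases le_total a c with h1 | h1
    · exact k1 a b c hb ha h1 h
    · exact (k1 c b a hb (by nlinarith) h1 (by linear_combination h)).swap
  intro a b c hb ha h
  rcases Int.natAbs_eq b with h1 | h1
  · exact k2 a b c (by omega) ha h
  · exact (k2 a (-b) c (by omega) ha (by linear_combination h)).neg

theorem step {q : ℕ} (hq : q.Prime) (h2 : q % 2 = 1) {a b u v n : ℤ} (h : a ^ 2 + 11 * b ^ 2 = q)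
    (hu : Odd u) (hv : Odd v) (e : u ^ 2 + 11 * v ^ 2 = 4 * (q * n)) (d : (q : ℤ) ∣ v * a - u * b) :
    ∃ u' v' : ℤ, Odd u' ∧ Odd v' ∧ u' ^ 2 + 11 * v' ^ 2 = 4 * n := by
  obtain ⟨v', hv'⟩ := d
  have q0 : (q : ℤ) ≠ 0 := by exact_mod_cast hq.ne_zero
  have k : (u * a + 11 * v * b) ^ 2 + 11 * (q * v') ^ 2 = 4 * q ^ 2 * n := by
    rw [← hv']
    linear_combination (u ^ 2 + 11 * v ^ 2) * h + q * e
  obtain ⟨u', hu'⟩ : (q : ℤ) ∣ u * a + 11 * v * b :=
    (Nat.prime_iff_prime_int.1 hq).dvd_of_dvd_pow (n := 2)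
      ⟨4 * q * n - 11 * q * v' ^ 2, by linear_combination k⟩
  have e' : u' ^ 2 + 11 * v' ^ 2 = 4 * n := by
    refine mul_left_cancel₀ (pow_ne_zero 2 q0) ?_
    rw [hu'] at k
    linear_combination k
  have o1 : Odd (a ^ 2 + 11 * b ^ 2) := by
    rw [h, Int.odd_iff]
    omega
  have o2 : Odd v' := by
    refine (Int.odd_mul.1 (hv' ▸ ?_ : Odd ((q : ℤ) * v'))).2
    have o3 := Int.not_even_iff_odd.2 hu
    have o4 := Int.not_even_iff_odd.2 hv
    simp only [← Int.not_even_iff_odd, Int.even_add, Int.even_sub, Int.even_mul, Int.even_pow,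
      o3, o4, show ¬ Even (11 : ℤ) by decide] at o1 ⊢
    simpa using o1
  refine ⟨u', v', ?_, o2, e'⟩
  have o3 : Even (u' ^ 2 + 11 * v' ^ 2) := ⟨2 * n, by linear_combination e'⟩
  have o4 := Int.not_even_iff_odd.2 o2
  simp only [← Int.not_even_iff_odd, Int.even_add, Int.even_mul, Int.even_pow, o4,
    show ¬ Even (11 : ℤ) by decide] at o3 ⊢
  simpa using o3

theorem desc (n : ℕ) : ∀ u v : ℤ, Odd u → Odd v → u ^ 2 + 11 * v ^ 2 = 4 * n →
    (∀ q : ℕ, q.Prime → q ∣ n → ∃ x : ℤ, (q : ℤ) ∣ x ^ 2 + 11) →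
    ∃ q : ℕ, q.Prime ∧ q ∣ n ∧ ∃ a b : ℤ, Odd a ∧ Odd b ∧ a ^ 2 + 11 * b ^ 2 = 4 * q := by
  induction n using Nat.strong_induction_on with
  | _ n ih =>
  intro u v hu hv e hn
  have o1 : n % 2 = 1 ∧ n ≠ 1 := by
    obtain ⟨s, rfl⟩ := hu
    obtain ⟨t, rfl⟩ := hv
    obtain ⟨s', hs⟩ := Int.even_mul_succ_self s
    obtain ⟨t', ht⟩ := Int.even_mul_succ_self t
    have h1 : (n : ℤ) = 2 * (s' + 11 * t') + 3 := by nlinarith
    have h2 : ∀ s : ℤ, 0 ≤ s * (s + 1) := fun s => by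
      rcases le_or_gt 0 s with h | h <;> nlinarith
    have h3 := h2 s
    have h4 := h2 t
    omega
  obtain ⟨q, hq, m, rfl⟩ := Nat.exists_prime_and_dvd o1.2
  have h2 : q % 2 = 1 := Nat.odd_iff.1 (Nat.odd_mul.1 (Nat.odd_iff.2 o1.1)).1
  obtain ⟨x, hx, hd⟩ : ∃ x : ℤ, Odd x ∧ (q : ℤ) ∣ x ^ 2 + 11 := by
    obtain ⟨x, hx⟩ := hn q hq (dvd_mul_right _ _)
    rcases Int.even_or_odd x with h | h
    · refine ⟨x + q, h.add_odd (Int.odd_iff.2 (by omega)), ?_⟩
      rw [show (x + q) ^ 2 + 11 = x ^ 2 + 11 + q * (2 * x + q) by ring]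
      exact hx.add (dvd_mul_right _ _)
    · exact ⟨x, h, hx⟩
  obtain ⟨c, hc⟩ : (4 * q : ℤ) ∣ x ^ 2 + 11 := by
    refine IsCoprime.mul_dvd ?_ ?_ hd
    · exact (Int.isCoprime_iff_gcd_eq_one.2 (Nat.Coprime.pow_left 2
        ((Nat.coprime_primes Nat.prime_two hq).2 (by omega))) : IsCoprime (4 : ℤ) q)
    · obtain ⟨s, rfl⟩ := hx
      exact ⟨s ^ 2 + s + 3, by ring⟩
  obtain ⟨X, Y, hXY⟩ := red _ q x c rfl (by exact_mod_cast hq.pos) (by linear_combination hc) 1 0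
  rcases Int.even_or_odd Y with ⟨b, rfl⟩ | hY
  · have h : (X + b) ^ 2 + 11 * b ^ 2 = q := by linear_combination -hXY
    push_cast at e
    have hd2 : (q : ℤ) ∣ (v * (X + b) - u * b) * (v * (X + b) - u * -b) :=
      ⟨v ^ 2 - 4 * m * b ^ 2, by linear_combination v ^ 2 * h - b ^ 2 * e⟩
    obtain ⟨u', v', h1, h3, h4⟩ : ∃ u' v' : ℤ, Odd u' ∧ Odd v' ∧ u' ^ 2 + 11 * v' ^ 2 = 4 * m := by
      rcases (Nat.prime_iff_prime_int.1 hq).dvd_or_dvd hd2 with d | d
      · exact step hq h2 h hu hv e d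
      · exact step hq h2 (by linear_combination h) hu hv e d
    have m0 : 0 < m := Nat.pos_of_ne_zero fun h0 => by simp [h0] at o1
    obtain ⟨p, hp, hpm, r⟩ := ih m (by nlinarith [hq.two_le]) u' v' h1 h3 h4
      fun p hp hd => hn p hp (hd.mul_left q)
    exact ⟨p, hp, hpm.mul_left q, r⟩
  · exact ⟨q, hq, dvd_mul_right _ _, 2 * X + Y, Y, (even_two_mul X).add_odd hY, hY, by linear_combination -4 * hXY⟩

theorem uniq0 {q : ℕ} (hq : q.Prime) {a b c d : ℤ} (h : a ^ 2 + 11 * b ^ 2 = 4 * q)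
    (h' : c ^ 2 + 11 * d ^ 2 = 4 * q) (e : (q : ℤ) ∣ a * d - b * c) : a * d - b * c = 0 := by
  obtain ⟨k, hk⟩ := e
  have q0 : (q : ℤ) ≠ 0 := by exact_mod_cast hq.ne_zero
  have k1 : (a * c + 11 * b * d) ^ 2 + 11 * (q * k) ^ 2 = 16 * q ^ 2 := by
    rw [← hk]
    linear_combination (c ^ 2 + 11 * d ^ 2) * h + 4 * q * h'
  obtain ⟨w, hw⟩ : (q : ℤ) ∣ a * c + 11 * b * d :=
    (Nat.prime_iff_prime_int.1 hq).dvd_of_dvd_pow (n := 2)
      ⟨16 * q - 11 * q * k ^ 2, by linear_combination k1⟩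
  have k2 : w ^ 2 + 11 * k ^ 2 = 16 := by
    refine mul_left_cancel₀ (pow_ne_zero 2 q0) ?_
    rw [hw] at k1
    linear_combination k1
  have k3 : -1 ≤ k ∧ k ≤ 1 := ⟨by nlinarith, by nlinarith⟩
  have k4 : -4 ≤ w ∧ w ≤ 4 := ⟨by nlinarith, by nlinarith⟩
  obtain ⟨_, _⟩ := k3
  obtain ⟨_, _⟩ := k4
  rw [hk]
  interval_cases k <;> interval_cases w <;> simp_all

theorem uniq {q : ℕ} (hq : q.Prime) {a b c d : ℤ} (h : a ^ 2 + 11 * b ^ 2 = 4 * q)
    (h' : c ^ 2 + 11 * d ^ 2 = 4 * q) : (c = a ∨ c = -a) ∧ (d = b ∨ d = -b) := by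
  have q0 : (4 * q : ℤ) ≠ 0 := by exact_mod_cast mul_ne_zero four_ne_zero hq.ne_zero
  have e : (a * d - b * c) * (a * -d - b * c) = 4 * q * (b ^ 2 - d ^ 2) := by
    linear_combination b ^ 2 * h' - d ^ 2 * h
  have k : (a * d - b * c) * (a * -d - b * c) = 0 := by
    have d1 : (q : ℤ) ∣ (a * d - b * c) * (a * -d - b * c) :=
      ⟨4 * (b ^ 2 - d ^ 2), by linear_combination e⟩
    have h1 : c ^ 2 + 11 * (-d) ^ 2 = 4 * q := by linear_combination h'
    rcases (Nat.prime_iff_prime_int.1 hq).dvd_or_dvd d1 with f | f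
    · rw [uniq0 hq h h' f, zero_mul]
    · rw [uniq0 hq h h1 f, mul_zero]
  have k1 : b ^ 2 - d ^ 2 = 0 := (mul_eq_zero.1 (e ▸ k)).resolve_left q0
  exact ⟨sq_eq_sq_iff_eq_or_eq_neg.1 (by linear_combination h' - h + 11 * k1),
    sq_eq_sq_iff_eq_or_eq_neg.1 (by linear_combination -k1)⟩

theorem cnt {q : ℕ} (hq : q.Prime) (h3 : q ≠ 3) {a b : ℤ} (ha : Odd a) (hb : Odd b)
    (h : a ^ 2 + 11 * b ^ 2 = 4 * q) : ∃ m k : ℤ, q = 1 + 2 * (pentagonal m + 11 * pentagonal k) ∧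
      ∀ m' k' : ℤ, q = 1 + 2 * (pentagonal m' + 11 * pentagonal k') → m' = m ∧ k' = k := by
  have eq : ∀ m k : ℤ, q = 1 + 2 * (pentagonal m + 11 * pentagonal k) ↔
      (2 - m - 11 * k) ^ 2 + 11 * (m - k) ^ 2 = 4 * q := fun m k => by
    have e1 := two_mul_natCast_pentagonal m
    have e2 := two_mul_natCast_pentagonal k
    zify
    exact ⟨fun e => by linear_combination -4 * e - 4 * e1 - 44 * e2,
      fun e => by nlinarith⟩
  have key : ∀ a b : ℤ, Odd a → Odd b → a ^ 2 + 11 * b ^ 2 = 4 * q → (a + b) % 12 = 2 →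
      ∃ m k : ℤ, q = 1 + 2 * (pentagonal m + 11 * pentagonal k) ∧
      ∀ m' k' : ℤ, q = 1 + 2 * (pentagonal m' + 11 * pentagonal k') → m' = m ∧ k' = k := by
    intro a b ha hb h h12
    obtain ⟨k, hk⟩ : ∃ k : ℤ, a = 2 - 12 * k - b := ⟨(2 - a - b) / 12, by omega⟩
    refine ⟨b + k, k, (eq _ _).2 (by rw [← h, hk]; ring), fun m' k' e => ?_⟩
    have := uniq hq h ((eq _ _).1 e)
    rw [Int.odd_iff] at ha hb
    omega
  have n3 : ¬ (3 : ℤ) ∣ (a + b) * (a - b) := fun ⟨t, ht⟩ => by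
    have : (3 : ℤ) ∣ q := ⟨t + 4 * b ^ 2 - q, by linear_combination -h + ht⟩
    exact h3 ((Nat.prime_dvd_prime_iff_eq Nat.prime_three hq).1 (by exact_mod_cast this)).symm
  have n1 : ¬ (3 : ℤ) ∣ a + b := fun d => n3 (d.mul_right _)
  have n2 : ¬ (3 : ℤ) ∣ a - b := fun d => n3 (d.mul_left _)
  have c : (a + b) % 12 = 2 ∨ (-a + -b) % 12 = 2 ∨ (a + -b) % 12 = 2 ∨ (-a + b) % 12 = 2 := by
    rw [Int.odd_iff] at ha hb
    have c1 : (a + b) % 4 = 2 ∨ (a - b) % 4 = 2 := by omega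
    have c2 : (a + b) % 3 = 1 ∨ (a + b) % 3 = 2 := by omega
    have c3 : (a - b) % 3 = 1 ∨ (a - b) % 3 = 2 := by omega
    rcases c1 with c1 | c1 <;> rcases c2 with c2 | c2 <;> rcases c3 with c3 | c3 <;> omega
  rcases c with c | c | c | c
  · exact key _ _ ha hb h c
  · exact key _ _ ha.neg hb.neg (by linear_combination h) c
  · exact key _ _ ha hb.neg (by linear_combination h) c
  · exact key _ _ ha.neg hb (by linear_combination h) c

theorem sq2 (p : PowerSeries ℤ) (j : ℕ) (h : Odd (p.coeff j)) : Odd ((p ^ 2).coeff (2 * j)) := by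
  rw [← ZMod.intCast_eq_one_iff_odd] at h ⊢
  rw [pow_two, PowerSeries.coeff_mul, ← Finset.add_sum_erase _ _
    (show (j, j) ∈ Finset.HasAntidiagonal.antidiagonal (2 * j) by simp [two_mul])]
  push_cast
  rw [h, Finset.sum_involution (fun x _ => x.swap), mul_one, add_zero]
  · intro x _
    rw [Prod.fst_swap, Prod.snd_swap, mul_comm]
    exact CharTwo.add_self_eq_zero _
  · intro x hx _ e
    simp only [Finset.mem_erase, Finset.HasAntidiagonal.mem_antidiagonal, Prod.ext_iff, Prod.fst_swap,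
      Prod.snd_swap, ne_eq] at hx e
    omega
  · intro x hx
    simp only [Finset.mem_erase, Finset.HasAntidiagonal.mem_antidiagonal, Prod.ext_iff, Prod.fst_swap,
      Prod.snd_swap, ne_eq] at hx ⊢
    omega
  · intro x _
    rfl

theorem odd_a {q : ℕ} (hq : q.Prime) (h3 : q ≠ 3) {a b : ℤ} (ha : Odd a) (hb : Odd b)
    (h : a ^ 2 + 11 * b ^ 2 = 4 * q) : Odd (H792.a q) := by
  obtain ⟨m, k, e, u⟩ := cnt hq h3 ha hb h
  have e1 : H792.a q = ((EP * EP11) ^ 2).coeff (2 * (pentagonal m + 11 * pentagonal k)) := by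
    rw [H792.a, A11, e, add_comm 1, PowerSeries.coeff_succ_X_mul, mul_pow]
  rw [e1]
  refine sq2 _ _ ?_
  rw [PowerSeries.coeff_mul, Finset.sum_eq_single (pentagonal m, 11 * pentagonal k)]
  · simp only [EP11, PowerSeries.coeff_mk, dvd_mul_right, if_true]
    rw [Nat.mul_div_cancel_left _ (by norm_num), EP,
      PowerSeries.coeff_pentagonalSeries_pentagonal, PowerSeries.coeff_pentagonalSeries_pentagonal]
    rcases Int.units_eq_one_or m.negOnePow with h1 | h1 <;>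
      rcases Int.units_eq_one_or k.negOnePow with h2 | h2 <;> simp [h1, h2]
  · rintro ⟨i, j⟩ hx hne
    rw [Finset.HasAntidiagonal.mem_antidiagonal] at hx
    by_contra h0
    have h1 := left_ne_zero_of_mul h0
    have h2 := right_ne_zero_of_mul h0
    simp only [EP11, PowerSeries.coeff_mk] at h1 h2 hx
    split_ifs at h2 with h11
    · obtain ⟨l, rfl⟩ := h11
      rw [Nat.mul_div_cancel_left _ (by norm_num)] at h2
      rw [EP, ne_eq, PowerSeries.coeff_pentagonalSeries_eq_zero_iff, not_not] at h1 h2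
      obtain ⟨m', rfl⟩ := h1
      obtain ⟨k', rfl⟩ := h2
      obtain ⟨rfl, rfl⟩ := u m' k' (by omega)
      exact hne rfl
    · exact h2 rfl
  · simp

theorem noroot {q : ℕ} (hq : q.Prime) (h2 : q ≠ 2) (h11 : q ≠ 11) (h : Odd (H792.a q))
    (x : ZMod q) : 4 * x ^ 3 - 4 * x ^ 2 - 40 * x - 79 ≠ 0 := by
  classical
  intro hx
  have : Fact q.Prime := ⟨hq⟩
  have ne : ∀ p : ℕ, p.Prime → q ≠ p → (p : ZMod q) ≠ 0 := fun p hp hn e =>
    hn ((Nat.prime_dvd_prime_iff_eq hq hp).1 ((ZMod.natCast_eq_zero_iff p q).1 e))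
  have n2 : (2 : ZMod q) ≠ 0 := by exact_mod_cast ne 2 Nat.prime_two h2
  have n11 : (11 : ZMod q) ≠ 0 := by exact_mod_cast ne 11 (by norm_num) h11
  let W : WeierstrassCurve.Affine (ZMod q) := ⟨0, -1, 1, -10, -20⟩
  have hΔ : W.Δ = -11 ^ 5 := by
    simp only [W, WeierstrassCurve.Δ, WeierstrassCurve.b₂, WeierstrassCurve.b₄,
      WeierstrassCurve.b₆, WeierstrassCurve.b₈]
    ring
  have : W.IsElliptic := ⟨by rw [hΔ]; exact (neg_ne_zero.2 (pow_ne_zero 5 n11)).isUnit⟩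
  have eqn : ∀ z : ZMod q × ZMod q, W.Equation z.1 z.2 ↔
      z.2 ^ 2 + z.2 = z.1 ^ 3 - z.1 ^ 2 - 10 * z.1 - 20 := fun z => by
    rw [WeierstrassCurve.Affine.equation_iff]
    simp only [W]
    exact ⟨fun e => by linear_combination e, fun e => by linear_combination e⟩
  have hP : W.Equation x (-1 / 2) := (eqn (x, -1 / 2)).2 (by
    field_simp
    linear_combination -hx)
  have h1 : addOrderOf (WeierstrassCurve.Affine.Point.mk hP) = 2 := by
    refine addOrderOf_eq_prime ?_ (WeierstrassCurve.Affine.Point.some_ne_zero _)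
    rw [two_nsmul]
    refine WeierstrassCurve.Affine.Point.add_self_of_Y_eq ?_
    simp only [W, WeierstrassCurve.Affine.negY]
    field_simp
    ring
  have h3 := addOrderOf_dvd_natCard (WeierstrassCurve.Affine.Point.mk hP)
  rw [h1, Nat.card_congr W.pointEquiv, show Nat.card (WithZero _) = _ from Finite.card_option,
    Nat.card_congr (Equiv.subtypeEquivRight eqn)] at h3
  rw [H742.coF.tr q hq h11, Int.odd_iff, H742.cnt] at h
  have h4 := hq.eq_two_or_odd.resolve_left h2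
  omega

theorem big (N : ℕ) : ∃ q : ℕ, q.Prime ∧ N < q ∧ q % 2 = 1 ∧ q ≠ 3 ∧
    ∀ x : ZMod q, 4 * x ^ 3 - 4 * x ^ 2 - 40 * x - 79 ≠ 0 := by
  set v : ℕ := ∏ i ∈ Finset.range (N + 2), (2 * i + 1) with hv
  have ov : Odd v := Finset.prod_induction _ Odd (fun _ _ => Odd.mul) odd_one
    fun i _ => odd_two_mul_add_one i
  obtain ⟨s, hs⟩ := ov
  have e : 1 + 11 * v ^ 2 = 4 * (11 * s ^ 2 + 11 * s + 3) := by
    rw [hs]
    ring
  obtain ⟨q, hq, hd, a, b, ha, hb, h⟩ := desc (11 * s ^ 2 + 11 * s + 3) 1 v odd_one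
    ⟨s, by exact_mod_cast hs⟩ (by exact_mod_cast e) fun q _ ⟨t, ht⟩ => ⟨11 * v, 44 * t, by
      zify at e ht
      linear_combination 11 * e + 44 * ht⟩
  have d1 : q ∣ 1 + 11 * v ^ 2 := e ▸ hd.mul_left 4
  have nd : ¬ q ∣ 11 * v ^ 2 := fun d => hq.one_lt.ne' (Nat.dvd_one.1 ((Nat.dvd_add_left d).1 d1))
  have h2 : q ≠ 2 := by
    rintro rfl
    have := Int.one_le_abs (z := a) (by rintro rfl; simp at ha)
    have := Int.one_le_abs (z := b) (by rintro rfl; simp at hb)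
    push_cast at h
    nlinarith [sq_abs a, sq_abs b]
  have o2 := hq.eq_two_or_odd.resolve_left h2
  have lg : N + 2 ≤ q / 2 := by
    by_contra hc
    refine nd (Dvd.dvd.mul_left (Dvd.dvd.pow ?_ two_ne_zero) 11)
    have := Finset.dvd_prod_of_mem (fun i => 2 * i + 1) (Finset.mem_range.2 (not_le.1 hc))
    rwa [show 2 * (q / 2) + 1 = q by omega] at this
  exact ⟨q, hq, by omega, o2, by omega, noroot hq h2 (fun e => nd (e ▸ dvd_mul_right _ _))
    (odd_a hq (by omega) ha hb h)⟩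

end Vale.Agent.P014Y.Inf

namespace Vale.Agent.P014Y

theorem good_infinite : {M : ℕ | Good M}.Infinite := by
  refine Set.infinite_of_forall_exists_gt fun N => ?_
  obtain ⟨q, hq, hN, h2, h3, h⟩ := Inf.big N
  by_cases h4 : q % 4 = 1
  · refine ⟨q, ⟨hq.squarefree, h4, fun p hp hd => ?_⟩, hN⟩
    obtain rfl := (Nat.prime_dvd_prime_iff_eq hp hq).1 hd
    exact h
  · refine ⟨3 * q, ⟨?_, by omega, fun p hp hd => ?_⟩, by omega⟩
    · exact (Nat.squarefree_mul ((Nat.coprime_primes Nat.prime_three hq).2 h3.symm)).2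
        ⟨Nat.prime_three.squarefree, hq.squarefree⟩
    · rcases (Nat.Prime.dvd_mul hp).1 hd with d | d
      · obtain rfl := (Nat.prime_dvd_prime_iff_eq hp Nat.prime_three).1 d
        decide
      · obtain rfl := (Nat.prime_dvd_prime_iff_eq hp hq).1 d
        exact h

end Vale.Agent.P014Y
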