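import Vale.Agent.P014Y.Sk

/-!
# P014Y: the local computations at 11
-/

open Polynomial
open scoped IntermediateField NumberTheorySymbols Classical

noncomputable section

namespace Vale.Agent.P014Y

namespace L11A

section Ultra

variable {F : Type} [NormedField F] [IsUltrametricDist F]

lemma add_lt {a b : F} {c : ℝ} (ha : ‖a‖ < c) (hb : ‖b‖ < c) : ‖a + b‖ < c :=
  (IsUltrametricDist.norm_add_le_max a b).trans_lt (max_lt ha hb)

lemma add_le {a b : F} {c : ℝ} (ha : ‖a‖ ≤ c) (hb : ‖b‖ ≤ c) : ‖a + b‖ ≤ c :=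
  (IsUltrametricDist.norm_add_le_max a b).trans (max_le ha hb)

lemma sub_lt {a b : F} {c : ℝ} (ha : ‖a‖ < c) (hb : ‖b‖ < c) : ‖a - b‖ < c := by
  rw [sub_eq_add_neg]
  exact add_lt ha (by rwa [norm_neg])

lemma sub_le {a b : F} {c : ℝ} (ha : ‖a‖ ≤ c) (hb : ‖b‖ ≤ c) : ‖a - b‖ ≤ c := by
  rw [sub_eq_add_neg]
  exact add_le ha (by rwa [norm_neg])

lemma add_eq {a b : F} (h : ‖b‖ < ‖a‖) : ‖a + b‖ = ‖a‖ := by
  rw [IsUltrametricDist.norm_add_eq_max_of_norm_ne_norm h.ne', max_eq_left h.le]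

omit [IsUltrametricDist F] in
lemma mul_lt1 {a b : F} (ha : ‖a‖ ≤ 1) (hb : ‖b‖ < 1) : ‖a * b‖ < 1 := by
  rw [norm_mul]
  exact mul_lt_one_of_nonneg_of_lt_one_right ha (norm_nonneg _) hb

omit [IsUltrametricDist F] in
lemma mul_le1 {a b : F} (ha : ‖a‖ ≤ 1) (hb : ‖b‖ ≤ 1) : ‖a * b‖ ≤ 1 := by
  rw [norm_mul]
  exact mul_le_one₀ ha (norm_nonneg _) hb

end Ultra

lemma n11 : ‖(11 : ℚ_[11])‖ = 1 / 11 := by
  have := Padic.norm_p (p := 11)
  simpa using this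

lemma nint (n : ℤ) : ‖(n : ℚ_[11])‖ ≤ 1 := Padic.norm_int_le_one n

lemma nunit (n : ℤ) (h : ¬ (11 : ℤ) ∣ n) : ‖(n : ℚ_[11])‖ = 1 := by
  refine le_antisymm (nint n) (not_lt.mp fun hh => h ?_)
  exact_mod_cast Padic.norm_intCast_lt_one_iff.mp hh

lemma n2 : ‖(2 : ℚ_[11])‖ = 1 := by
  have := nunit 2 (by norm_num)
  exact_mod_cast this

lemma n4 : ‖(4 : ℚ_[11])‖ = 1 := by
  have := nunit 4 (by norm_num)
  exact_mod_cast this

lemma nn (n : ℕ) [n.AtLeastTwo] : ‖(OfNat.ofNat n : ℚ_[11])‖ ≤ 1 := by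
  have := nint (n : ℤ)
  rw [Int.cast_natCast] at this
  exact this

lemma disc {a : ℚ_[11]} (h : ‖a‖ < 1) : ‖a‖ ≤ 1 / 11 := by
  have := (Padic.norm_le_pow_iff_norm_lt_pow_add_one a (-1)).mpr (by simpa using h)
  simpa using this

lemma par (a : ℚ_[11]) : ‖a‖ ^ 2 ≠ 1 / 11 := by
  intro h
  have h0 := norm_nonneg a
  by_cases h1 : ‖a‖ < 1
  · have := disc h1
    nlinarith
  · have := not_lt.mp h1
    nlinarith

lemma sq0 {u : ℚ_[11]} (h : ‖u - 1‖ < 1) : ∃ v : ℚ_[11], v ^ 2 = u ∧ ‖v - 1‖ < 1 := by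
  have hu : ‖u‖ ≤ 1 := by
    have : u = (u - 1) + 1 := by ring
    rw [this]
    exact add_le h.le (by simp)
  let w : ℤ_[11] := ⟨u, hu⟩
  have h2 : ‖(2 : ℤ_[11])‖ = 1 := by
    rw [PadicInt.norm_def]
    exact_mod_cast n2
  have hd : (derivative (X ^ 2 - C w : ℤ_[11][X])).aeval (1 : ℤ_[11]) = 2 := by
    simp
    norm_num
  have hn : ‖(X ^ 2 - C w : ℤ_[11][X]).aeval (1 : ℤ_[11])‖ <
      ‖(derivative (X ^ 2 - C w : ℤ_[11][X])).aeval (1 : ℤ_[11])‖ ^ 2 := by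
    rw [hd, h2]
    have : (X ^ 2 - C w : ℤ_[11][X]).aeval (1 : ℤ_[11]) = 1 - w := by simp
    rw [this, norm_sub_rev, PadicInt.norm_def, one_pow]
    exact h
  obtain ⟨z, hz, hz1, -⟩ := hensels_lemma hn
  rw [hd, h2, PadicInt.norm_def] at hz1
  refine ⟨z, ?_, hz1⟩
  have : z ^ 2 = w := by
    have h3 : z ^ 2 - w = 0 := by simpa using hz
    exact sub_eq_zero.mp h3
  have h4 := congrArg (fun t : ℤ_[11] => (t : ℚ_[11])) this
  simpa [w] using h4

lemma nsq (z : ℚ_[11]) (h : ‖z ^ 2 + 1‖ < 1) : False := by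
  have hz : ‖z‖ ≤ 1 := by
    by_contra hh
    have h1 : 1 < ‖z‖ := not_le.mp hh
    have h2 : ‖(1 : ℚ_[11])‖ < ‖z ^ 2‖ := by
      rw [norm_pow, norm_one]
      nlinarith
    rw [add_eq h2] at h
    rw [norm_one] at h2
    linarith
  let w : ℤ_[11] := ⟨z, hz⟩
  have h1 : ‖w ^ 2 + 1‖ < 1 := by
    rw [PadicInt.norm_def]
    exact h
  obtain ⟨t, ht⟩ := (PadicInt.norm_lt_one_iff_dvd _).mp h1
  have h2 := congrArg (PadicInt.toZMod (p := 11)) ht
  rw [map_add, map_pow, map_one, map_mul, map_natCast, ZMod.natCast_self, zero_mul] at h2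
  have h3 : ∀ a : ZMod 11, a ^ 2 + 1 ≠ 0 := by decide
  exact h3 _ h2

lemma sqM (M : ℕ) (h : J(M | 11) = 1) : ∃ μ : ℚ_[11], μ ^ 2 = M ∧ ‖μ‖ = 1 := by
  rw [← jacobiSym.legendreSym.to_jacobiSym] at h
  have h0 : ((M : ℤ) : ZMod 11) ≠ 0 := by
    intro hh
    rw [(legendreSym.eq_zero_iff 11 M).mpr hh] at h
    exact zero_ne_one h
  obtain ⟨m, hm⟩ := (legendreSym.eq_one_iff 11 h0).mp h
  obtain ⟨k, rfl⟩ := ZMod.intCast_surjective m
  have hk : ¬ (11 : ℤ) ∣ k := by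
    intro hh
    apply h0
    have : (k : ZMod 11) = 0 := (ZMod.intCast_zmod_eq_zero_iff_dvd k 11).mpr (by exact_mod_cast hh)
    rw [hm, this, zero_mul]
  have hd : (11 : ℤ) ∣ (M : ℤ) - k * k := by
    have : (((M : ℤ) - k * k : ℤ) : ZMod 11) = 0 := by
      rw [Int.cast_sub, hm, Int.cast_mul, sub_self]
    exact_mod_cast (ZMod.intCast_zmod_eq_zero_iff_dvd _ 11).mp this
  have hk1 := nunit k hk
  have hk0 : (k : ℚ_[11]) ≠ 0 := by
    intro hh
    rw [hh, norm_zero] at hk1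
    exact zero_ne_one hk1
  have h1 : ‖(M : ℚ_[11]) / k ^ 2 - 1‖ < 1 := by
    have e1 : (M : ℚ_[11]) / k ^ 2 - 1 = (((M : ℤ) - k * k : ℤ) : ℚ_[11]) / k ^ 2 := by
      push_cast
      field_simp
    rw [e1, norm_div, norm_pow, hk1, one_pow, div_one]
    exact Padic.norm_intCast_lt_one_iff.mpr (by exact_mod_cast hd)
  obtain ⟨v, hv, hv1⟩ := sq0 h1
  refine ⟨v * k, ?_, ?_⟩
  · rw [mul_pow, hv]
    field_simp
  · have : v = 1 + (v - 1) := by ring
    rw [norm_mul, hk1, this, add_eq (by rwa [norm_one]), norm_one, mul_one]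

end L11A

open L11A in
theorem n5 : N5 := by
  intro M x y hM hxy hx
  obtain ⟨μ, hμ, hμ1⟩ := sqM M hM
  have hμ0 : μ ≠ 0 := by
    intro hh
    rw [hh, norm_zero] at hμ1
    exact zero_ne_one hμ1
  have hD : ((-11 * M : ℤ) : ℚ_[11]) = -11 * μ ^ 2 := by
    rw [hμ]
    push_cast
    ring
  rw [hD] at hxy ⊢
  have hDn : ‖(-11 * μ ^ 2 : ℚ_[11])‖ = 1 / 11 := by
    rw [norm_mul, norm_neg, n11, norm_pow, hμ1]
    norm_num
  have h11 : (11 : ℚ_[11]) ≠ 0 := by norm_num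
  obtain ⟨w, hw⟩ : ∃ w : ℚ_[11], x = -11 * μ ^ 2 * (w - 105) :=
    ⟨x / (-11 * μ ^ 2) + 105, by field_simp; ring⟩
  have hs : ‖w - 105‖ ≤ 1 := by
    have := disc hx
    rw [hw, norm_mul, hDn] at this
    linarith
  have e1 : x - 2 * (-11 * μ ^ 2) = -11 * μ ^ 2 * (w - 107) := by
    rw [hw]
    ring
  rw [e1, norm_mul, hDn]
  by_contra hc
  have h107 : 1 ≤ ‖w - 107‖ := by linarith [not_lt.mp hc]
  have hw1 : ‖w‖ ≤ 1 := by
    have : w = (w - 105) + 105 := by ring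
    rw [this]
    exact add_le hs (nn 105)
  have h316 : ‖w - 316‖ = 1 := by
    refine le_antisymm (sub_le hw1 (nn 316)) (not_lt.mp fun hh => ?_)
    have : w - 107 = (w - 316) + 19 * 11 := by ring
    rw [this] at h107
    exact absurd (add_lt hh (mul_lt1 (nn 19) (by rw [n11]; norm_num))) (not_lt.mpr h107)
  have key : (2 * y + 1) ^ 2 =
      -11 ^ 3 * μ ^ 6 * (4 * w ^ 2 * (w - 316) + (100 * 11 ^ 3 * w - 29 * 11 ^ 5)) := by
    rw [hxy, hw, ps]
    ring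
  by_cases hw3 : ‖w / 11 ^ 2‖ < 1
  · have h3 := disc hw3
    obtain ⟨t, ht⟩ : ∃ t : ℚ_[11], w = 11 ^ 3 * t := ⟨w / 11 ^ 3, by field_simp⟩
    have ht1 : ‖t‖ ≤ 1 := by
      have e2 : w / 11 ^ 2 = 11 * t := by
        rw [ht]
        field_simp
      rw [e2, norm_mul, n11] at h3
      linarith
    apply nsq ((2 * y + 1) / (2 * 11 ^ 4 * μ ^ 3))
    have e3 : ((2 * y + 1) / (2 * 11 ^ 4 * μ ^ 3)) ^ 2 + 1 =
        (3 - (4 * (t * t * (w - 316)) + 100 * t)) * 11 / 4 := by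
      rw [div_pow, key]
      nth_rewrite 1 [ht]
      nth_rewrite 2 [ht]
      field_simp
      ring
    rw [e3, norm_div, n4, div_one]
    refine mul_lt1 (sub_le (nn 3) (add_le (mul_le1 (nn 4) (mul_le1 (mul_le1 ht1 ht1) h316.le))
      (mul_le1 (nn 100) ht1))) (by rw [n11]; norm_num)
  · have h2 : 1 / 121 ≤ ‖w‖ := by
      have := not_lt.mp hw3
      rw [norm_div, norm_pow, n11, le_div_iff₀ (by norm_num)] at this
      linarith
    have hw0 : w ≠ 0 := by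
      intro hh
      rw [hh, norm_zero] at h2
      norm_num at h2
    have m1 : ‖4 * w ^ 2 * (w - 316)‖ = ‖w‖ ^ 2 := by
      rw [norm_mul, norm_mul, n4, h316, norm_pow]
      ring
    have m2 : ‖(100 * 11 ^ 3 * w - 29 * 11 ^ 5 : ℚ_[11])‖ < ‖4 * w ^ 2 * (w - 316)‖ := by
      rw [m1]
      apply sub_lt
      · rw [norm_mul, norm_mul, norm_pow, n11]
        have := nn 100
        have h0 := norm_nonneg (100 : ℚ_[11])
        nlinarith
      · rw [norm_mul, norm_pow, n11]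
        have := nn 29
        nlinarith
    apply par ((2 * y + 1) / (11 * w))
    rw [← norm_pow, div_pow, key, norm_div, norm_mul, add_eq m2, m1, norm_mul, norm_neg, norm_pow,
      norm_pow, norm_pow, norm_mul, n11, hμ1]
    have : ‖w‖ ≠ 0 := norm_ne_zero_iff.mpr hw0
    field_simp


namespace L11A

/-- the embedding into the algebraic closure -/
abbrev ea : ℚ_[11] →+* PadicAlgCl 11 := algebraMap ℚ_[11] (PadicAlgCl 11)

lemma nem (a : ℚ_[11]) : ‖ea a‖ = ‖a‖ := PadicAlgCl.norm_extends 11 a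

lemma em_mem (K : IntermediateField ℚ_[11] (PadicAlgCl 11)) (a : ℚ_[11]) : ea a ∈ K :=
  K.algebraMap_mem a

variable {π : PadicAlgCl 11} (hπ : π ^ 2 = -11)

include hπ

lemma npi : ‖π‖ ^ 2 = 1 / 11 := by
  have : (11 : PadicAlgCl 11) = ea 11 := (map_ofNat ea 11).symm
  rw [← norm_pow, hπ, norm_neg, this, nem, n11]

lemma nmax (a b : ℚ_[11]) : ‖a‖ ≤ ‖ea a + ea b * π‖ ∧ ‖ea b * π‖ ≤ ‖ea a + ea b * π‖ := by
  by_cases hb : b = 0
  · simp [hb]
  have hne : ‖ea a‖ ≠ ‖ea b * π‖ := by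
    intro h
    apply par (a / b)
    rw [nem, norm_mul, nem] at h
    have : ‖b‖ ≠ 0 := norm_ne_zero_iff.mpr hb
    rw [norm_div, h, ← npi hπ]
    field_simp
  rw [IsUltrametricDist.norm_add_eq_max_of_norm_ne_norm hne, ← nem a]
  exact ⟨le_max_left _ _, le_max_right _ _⟩

lemma indep {a b : ℚ_[11]} (h : ea a + ea b * π = 0) : a = 0 ∧ b = 0 := by
  obtain ⟨h1, h2⟩ := nmax hπ a b
  rw [h, norm_zero] at h1 h2
  refine ⟨norm_le_zero_iff.mp h1, ?_⟩
  rcases mul_eq_zero.mp (norm_le_zero_iff.mp h2) with h3 | h3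
  · exact (map_eq_zero ea).mp h3
  · rw [h3] at hπ
    norm_num at hπ

lemma coord {z : PadicAlgCl 11} (hz : z ∈ ℚ_[11]⟮π⟯) : ∃ a b : ℚ_[11], z = ea a + ea b * π := by
  induction hz using IntermediateField.adjoin_induction with
  | mem x hx =>
    rw [Set.mem_singleton_iff.mp hx]
    exact ⟨0, 1, by simp⟩
  | algebraMap x => exact ⟨x, 0, by simp⟩
  | add x y _ _ hx hy =>
    obtain ⟨a, b, rfl⟩ := hx
    obtain ⟨c, d, rfl⟩ := hy
    exact ⟨a + c, b + d, by rw [map_add, map_add]; ring⟩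
  | inv x _ hx =>
    obtain ⟨a, b, rfl⟩ := hx
    by_cases h0 : ea a + ea b * π = 0
    · exact ⟨0, 0, by simp [h0]⟩
    have h1 : ea a + ea (-b) * π ≠ 0 := by
      intro hh
      obtain ⟨h2, h3⟩ := indep hπ hh
      apply h0
      rw [h2, neg_eq_zero.mp h3]
      simp
    have h2 : ea (a ^ 2 + 11 * b ^ 2) = (ea a + ea b * π) * (ea a + ea (-b) * π) := by
      rw [map_add, map_mul, map_pow, map_pow, map_ofNat, map_neg]
      linear_combination (ea b) ^ 2 * hπ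
    refine ⟨a / (a ^ 2 + 11 * b ^ 2), -b / (a ^ 2 + 11 * b ^ 2), ?_⟩
    rw [map_div₀, map_div₀, h2, ← mul_div_right_comm, ← add_div, div_mul_cancel_right₀ h1]
  | mul x y _ _ hx hy =>
    obtain ⟨a, b, rfl⟩ := hx
    obtain ⟨c, d, rfl⟩ := hy
    refine ⟨a * c - 11 * (b * d), a * d + b * c, ?_⟩
    simp only [map_add, map_sub, map_mul, map_ofNat]
    linear_combination (ea b * ea d) * hπ

lemma no_i {z : PadicAlgCl 11} (hz : z ∈ ℚ_[11]⟮π⟯) : z ^ 2 ≠ -1 := by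
  intro h
  obtain ⟨a, b, rfl⟩ := coord hπ hz
  have h1 : ea (a ^ 2 - 11 * b ^ 2 + 1) + ea (2 * a * b) * π = 0 := by
    simp only [map_add, map_sub, map_mul, map_pow, map_ofNat, map_one]
    linear_combination h - (ea b) ^ 2 * hπ
  obtain ⟨h2, h3⟩ := indep hπ h1
  by_cases hb : b = 0
  · apply nsq a
    rw [hb] at h2
    have : a ^ 2 + 1 = 0 := by linear_combination h2
    rw [this, norm_zero]
    exact one_pos
  · have ha : a = 0 := by
      rcases mul_eq_zero.mp h3 with h4 | h4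
      · exact (mul_eq_zero.mp h4).resolve_left (by norm_num)
      · exact absurd h4 hb
    apply par b⁻¹
    have : b⁻¹ ^ 2 = 11 := by
      rw [ha] at h2
      field_simp
      linear_combination h2
    rw [← norm_pow, this, n11]

lemma sq1 {u : PadicAlgCl 11} (hu : u ∈ ℚ_[11]⟮π⟯) (h : ‖u - 1‖ < 1) :
    ∃ z ∈ ℚ_[11]⟮π⟯, z ^ 2 = u := by
  obtain ⟨a, b, rfl⟩ := coord hπ hu
  have e1 : ea a + ea b * π - 1 = ea (a - 1) + ea b * π := by
    rw [map_sub, map_one]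
    ring
  rw [e1] at h
  obtain ⟨h1, h2⟩ := nmax hπ (a - 1) b
  have ha : ‖a - 1‖ < 1 := h1.trans_lt h
  have hb : ‖11 * b ^ 2‖ < 1 := by
    have h3 : ‖ea b * π‖ < 1 := h2.trans_lt h
    rw [norm_mul, nem] at h3
    rw [norm_mul, n11, norm_pow, ← npi hπ, ← mul_pow, mul_comm]
    exact pow_lt_one₀ (by positivity) h3 two_ne_zero
  have hN : ‖a ^ 2 + 11 * b ^ 2 - 1‖ < 1 := by
    have : a ^ 2 + 11 * b ^ 2 - 1 = ((a - 1) + 2) * (a - 1) + 11 * b ^ 2 := by ring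
    rw [this]
    exact add_lt (mul_lt1 (add_le ha.le (nn 2)) ha) hb
  obtain ⟨n, hn, hn1⟩ := sq0 hN
  have hc : ‖(a + n) / 2 - 1‖ < 1 := by
    have : (a + n) / 2 - 1 = ((a - 1) + (n - 1)) / 2 := by ring
    rw [this, norm_div, n2, div_one]
    exact add_lt ha hn1
  obtain ⟨c, hc2, hc1⟩ := sq0 hc
  have hc0 : c ≠ 0 := by
    intro hh
    rw [hh] at hc1
    simp at hc1
  have h4 : c ^ 2 - 11 * (b / (2 * c)) ^ 2 = a := by
    field_simp
    linear_combination (4 * c ^ 2 - 2 * a + 2 * n) * hc2 + hn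
  have h5 : 2 * c * (b / (2 * c)) = b := by field_simp
  refine ⟨ea c + ea (b / (2 * c)) * π, add_mem (em_mem _ _)
    (mul_mem (em_mem _ _) (IntermediateField.mem_adjoin_simple_self _ _)), ?_⟩
  generalize b / (2 * c) = d at h4 h5
  rw [← h4, ← h5]
  simp only [map_sub, map_mul, map_pow, map_ofNat]
  linear_combination (ea d) ^ 2 * hπ

lemma near {u v : PadicAlgCl 11} (hu : u ∈ ℚ_[11]⟮π⟯) (hv : ∃ z ∈ ℚ_[11]⟮π⟯, z ^ 2 = v)
    (h : ‖v - u‖ < ‖u‖) : ∃ z ∈ ℚ_[11]⟮π⟯, z ^ 2 = u := by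
  obtain ⟨z, hz, rfl⟩ := hv
  have hu0 : u ≠ 0 := by
    intro hh
    rw [hh, norm_zero] at h
    exact absurd h (not_lt.mpr (norm_nonneg _))
  have h1 : ‖z ^ 2 / u - 1‖ < 1 := by
    have : z ^ 2 / u - 1 = (z ^ 2 - u) / u := by field_simp
    rw [this, norm_div]
    exact (div_lt_one (norm_pos_iff.mpr hu0)).mpr h
  obtain ⟨w, hw, hw2⟩ := sq1 hπ (div_mem (pow_mem hz 2) hu) h1
  have hw0 : w ≠ 0 := by
    intro hh
    rw [← hw2, hh] at h1
    simp at h1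
  refine ⟨z / w, div_mem hz hw, ?_⟩
  have hz0 : z ≠ 0 := by
    intro hh
    rw [hh] at h1
    simp at h1
  rw [div_pow, hw2]
  field_simp

end L11A

namespace L11A

lemma root : ∃ r : ℚ_[11], ps 1 r = 0 ∧ ‖r - 2‖ < 1 := by
  have h8 : ‖(-8 : ℤ_[11])‖ = 1 := by
    rw [PadicInt.norm_def]
    exact_mod_cast nunit (-8) (by norm_num)
  have hd : (derivative (4 * X ^ 3 - 4 * X ^ 2 - 40 * X - 79 : ℤ[X])).aeval (2 : ℤ_[11]) = -8 := by
    simp [map_ofNat]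
    norm_num
  have hv : (4 * X ^ 3 - 4 * X ^ 2 - 40 * X - 79 : ℤ[X]).aeval (2 : ℤ_[11]) = -143 := by
    simp [map_ofNat]
    norm_num
  have hn : ‖(4 * X ^ 3 - 4 * X ^ 2 - 40 * X - 79 : ℤ[X]).aeval (2 : ℤ_[11])‖ <
      ‖(derivative (4 * X ^ 3 - 4 * X ^ 2 - 40 * X - 79 : ℤ[X])).aeval (2 : ℤ_[11])‖ ^ 2 := by
    rw [hd, hv, h8, one_pow, PadicInt.norm_def]
    have := (Padic.norm_intCast_lt_one_iff (p := 11) (k := -143)).mpr (by norm_num)
    exact_mod_cast this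
  obtain ⟨z, hz, hz1, -⟩ := hensels_lemma hn
  rw [hd, h8, PadicInt.norm_def] at hz1
  refine ⟨z, ?_, hz1⟩
  have h3 : 4 * z ^ 3 - 4 * z ^ 2 - 40 * z - 79 = 0 := by simpa [map_ofNat] using hz
  have h4 := congrArg (PadicInt.Coe.ringHom (p := 11)) h3
  simp only [map_sub, map_mul, map_pow, map_ofNat, map_zero] at h4
  rw [ps]
  have h5 : (PadicInt.Coe.ringHom (p := 11)) z = (z : ℚ_[11]) := rfl
  rw [h5] at h4
  linear_combination h4

/-- the ramified root -/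
lemma ram : ∃ (r : ℚ_[11]) (π ρ : PadicAlgCl 11), ps 1 r = 0 ∧ ‖r - 2‖ < 1 ∧ π ^ 2 = -11 ∧
    ps 1 ρ = 0 ∧ ‖ρ - 5‖ < 1 ∧ ∃ a b : ℚ_[11], b ≠ 0 ∧ ρ = ea a + ea b * π := by
  obtain ⟨r, hr, hr2⟩ := root
  obtain ⟨π, hπ⟩ := IsAlgClosed.exists_pow_nat_eq (-11 : PadicAlgCl 11) two_pos
  obtain ⟨g, hg⟩ : ∃ g : ℚ_[11], g = 3 * r ^ 2 - 2 * r - 10 := ⟨_, rfl⟩
  obtain ⟨d, hd⟩ : ∃ d : ℚ_[11], d = (-3 * r ^ 2 + 2 * r + 41) / 4 := ⟨_, rfl⟩
  have hI : 64 * d * g ^ 2 = -11 ^ 5 := by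
    rw [ps] at hr
    rw [hg, hd]
    linear_combination (-108 * r ^ 3 + 108 * r ^ 2 + 1080 * r - 2869) * hr
  have hg0 : g ≠ 0 := by
    intro hh
    rw [hh] at hI
    norm_num at hI
  obtain ⟨b, hb⟩ : ∃ b : ℚ_[11], b = 121 / (8 * g) := ⟨_, rfl⟩
  have hb0 : b ≠ 0 := by
    rw [hb]
    exact div_ne_zero (by norm_num) (mul_ne_zero (by norm_num) hg0)
  have hbd : -11 * b ^ 2 = d := by
    rw [hb]
    field_simp
    linear_combination -hI
  have hq : (ea b * π) ^ 2 = ea d := by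
    rw [← hbd, map_mul, map_neg, map_ofNat, map_pow, mul_pow, hπ]
    ring
  have hdn : ‖d‖ < 1 := by
    have : d = (3 * 11 - (10 + 3 * (r - 2)) * (r - 2)) / 4 := by
      rw [hd]
      ring
    rw [this, norm_div, n4, div_one]
    exact sub_lt (mul_lt1 (nn 3) (by rw [n11]; norm_num))
      (mul_lt1 (add_le (nn 10) (mul_le1 (nn 3) hr2.le)) hr2)
  refine ⟨r, π, ea ((1 - r) / 2) + ea b * π, hr, hr2, hπ, ?_, ?_, _, b, hb0, rfl⟩
  · have h1 := congrArg ea hr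
    rw [ps] at h1 ⊢
    rw [hd] at hq
    simp only [map_sub, map_mul, map_pow, map_ofNat, map_zero, map_one, map_div₀, map_add,
      map_neg] at h1 hq ⊢
    generalize ea b * π = t at hq ⊢
    generalize ea r = s at h1 hq ⊢
    linear_combination h1 + 4 * ((1 - s) / 2 + t - s) * hq
  · have e1 : ea ((1 - r) / 2) + ea b * π - 5 = ea (-((r - 2) + 11) / 2) + ea b * π := by
      simp only [map_sub, map_ofNat, map_one, map_div₀, map_add, map_neg]
      ring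
    rw [e1]
    apply add_lt
    · rw [nem, norm_div, n2, div_one, norm_neg]
      exact add_lt hr2 (by rw [n11]; norm_num)
    · have : ‖ea b * π‖ ^ 2 < 1 := by rwa [← norm_pow, hq, nem]
      exact lt_of_pow_lt_pow_left₀ 2 zero_le_one (by rwa [one_pow])

end L11A

open L11A in
theorem l11 : L11 := by
  intro M hM
  obtain ⟨r, π, ρ, hr, hr2, hπ, hρ, hρ5, a, b, hb, hab⟩ := ram
  obtain ⟨μ, hμ, hμ1⟩ := sqM M hM
  have hμ0 : μ ≠ 0 := by
    intro hh
    rw [hh, norm_zero] at hμ1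
    exact zero_ne_one hμ1
  have hN := n5 M
  obtain ⟨D, hD⟩ : ∃ D : ℚ_[11], D = ((-11 * M : ℤ) : ℚ_[11]) := ⟨_, rfl⟩
  have hD1 : ((-11 * M : ℤ) : PadicAlgCl 11) = ea D := by rw [hD, map_intCast]
  rw [← hD] at hN
  rw [← hD, hD1]
  have hD2 : D = -11 * μ ^ 2 := by
    rw [hD, hμ]
    push_cast
    ring
  have hDn : ‖D‖ = 1 / 11 := by
    rw [hD2, norm_mul, norm_neg, n11, norm_pow, hμ1]
    norm_num
  have hD0 : D ≠ 0 := by
    intro hh
    rw [hh, norm_zero] at hDn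
    norm_num at hDn
  have he : ea D * ρ = ea (D * a) + ea (D * b) * π := by
    rw [hab, map_mul, map_mul]
    ring
  have hDb : ea (D * b) ≠ 0 := (map_ne_zero ea).mpr (mul_ne_zero hD0 hb)
  have hK : ℚ_[11]⟮ea D * ρ⟯ = ℚ_[11]⟮π⟯ := by
    apply le_antisymm
    · rw [IntermediateField.adjoin_simple_le_iff, he]
      exact add_mem (em_mem _ _) (mul_mem (em_mem _ _) (IntermediateField.mem_adjoin_simple_self _ _))
    · rw [IntermediateField.adjoin_simple_le_iff]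
      have : π = (ea D * ρ - ea (D * a)) / ea (D * b) := by
        rw [he]
        field_simp
        ring
      rw [this]
      exact div_mem (sub_mem (IntermediateField.mem_adjoin_simple_self _ _) (em_mem _ _)) (em_mem _ _)
  have hem : ea D * ρ ∈ ℚ_[11]⟮π⟯ := hK ▸ IntermediateField.mem_adjoin_simple_self _ _
  have h5 : ‖(5 : PadicAlgCl 11)‖ ≤ 1 := by
    rw [← map_ofNat ea 5, nem]
    exact nn 5
  have hρ1 : ‖ρ‖ ≤ 1 := by
    have : ρ = (ρ - 5) + 5 := by ring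
    rw [this]
    exact add_le hρ5.le h5
  refine ⟨ea D * ρ, ?_, ?_, ⟨D * r, ?_, ?_⟩, fun x y hxy => ⟨?_, ?_⟩⟩
  · rw [ps] at hρ ⊢
    linear_combination (ea D) ^ 3 * hρ
  · rw [hK]
    exact fun z hz => no_i hπ hz
  · rw [ps] at hr ⊢
    linear_combination D ^ 3 * hr
  · rw [mul_comm]
    refine mul_lt1 ?_ (by rw [hDn]; norm_num)
    have : r = (r - 2) + 2 := by ring
    rw [this]
    exact add_le hr2.le (nn 2)
  · intro hh
    have h1 : ea (D * a - x) + ea (D * b) * π = 0 := by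
      rw [map_sub]
      have h2 : ea x = ea D * ρ := hh
      rw [h2, he]
      ring
    exact mul_ne_zero hD0 hb (indep hπ h1).2
  · rw [hK]
    change ∃ z ∈ ℚ_[11]⟮π⟯, z ^ 2 = if ‖x‖ < 1 then ea D * ρ - ea x else ea x - ea D * ρ
    by_cases hx : ‖x‖ < 1
    · rw [if_pos hx]
      have h1 := hN x y hM hxy hx
      have h3 : ‖(3 : ℚ_[11]) / 5 ^ 2 - 1‖ < 1 := by
        have e1 : (3 : ℚ_[11]) / 5 ^ 2 - 1 = -(2 * 11) / 5 ^ 2 := by norm_num
        have e2 : ‖(5 : ℚ_[11])‖ = 1 := by exact_mod_cast nunit 5 (by norm_num)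
        rw [e1, norm_div, norm_neg, norm_pow, e2, norm_mul, n2, n11]
        norm_num
      obtain ⟨c, hc, -⟩ := sq0 h3
      have h3n : ‖ea (3 * D)‖ = 1 / 11 := by
        have e2 : ‖(3 : ℚ_[11])‖ = 1 := by exact_mod_cast nunit 3 (by norm_num)
        rw [nem, norm_mul, e2, hDn, one_mul]
      have hlt : ‖(ea D * ρ - ea x) - ea (3 * D)‖ < 1 / 11 := by
        have e1 : (ea D * ρ - ea x) - ea (3 * D) = ea D * (ρ - 5) - ea (x - 2 * D) := by
          simp only [map_sub, map_mul, map_ofNat]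
          ring
        rw [e1]
        apply sub_lt
        · rw [norm_mul, nem, hDn]
          linarith
        · rwa [nem]
      have hn : ‖ea D * ρ - ea x‖ = 1 / 11 := by
        have : ea D * ρ - ea x = ea (3 * D) + ((ea D * ρ - ea x) - ea (3 * D)) := by ring
        rw [this, add_eq (by rwa [h3n]), h3n]
      refine near hπ (sub_mem hem (em_mem _ _)) (v := ea (3 * D)) ⟨ea (5 * c * μ) * π,
        mul_mem (em_mem _ _) (IntermediateField.mem_adjoin_simple_self _ _), ?_⟩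
        (by rwa [norm_sub_rev, hn])
      have e3 : 3 * D = (5 * c * μ) ^ 2 * (-11) := by
        rw [hD2]
        linear_combination (275 * μ ^ 2) * hc
      rw [e3, mul_pow, hπ, map_mul ea (_ ^ 2), map_pow, map_neg, map_ofNat]
    · rw [if_neg hx]
      have hx1 : 1 ≤ ‖x‖ := not_lt.mp hx
      have hx0 : x ≠ 0 := by
        intro hh
        rw [hh, norm_zero] at hx1
        norm_num at hx1
      have h1 : ‖((2 * y + 1) / (2 * x)) ^ 2 / x - 1‖ < 1 := by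
        have hi : ‖x⁻¹‖ ≤ 1 := by
          rw [norm_inv]
          exact inv_le_one_of_one_le₀ hx1
        have hd : ‖D‖ < 1 := by rw [hDn]; norm_num
        have ht : ‖x⁻¹ * D‖ < 1 := mul_lt1 hi hd
        have e1 : ((2 * y + 1) / (2 * x)) ^ 2 / x - 1 =
            -((4 + (40 + 79 * (x⁻¹ * D)) * (x⁻¹ * D)) * (x⁻¹ * D)) / 4 := by
          rw [div_pow, hxy, ps]
          field_simp
          ring
        rw [e1, norm_div, n4, div_one, norm_neg]
        exact mul_lt1 (add_le (nn 4) (mul_le1 (add_le (nn 40) (mul_le1 (nn 79) ht.le)) ht.le)) ht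
      obtain ⟨c, hc, hc1⟩ := sq0 h1
      have hc0 : c ≠ 0 := by
        intro hh
        rw [hh] at hc1
        simp at hc1
      have hy0 : (2 * y + 1) / (2 * x) ≠ 0 := by
        intro hh
        rw [hh] at h1
        simp at h1
      have h2 : ((2 * y + 1) / (2 * x) / c) ^ 2 = x := by
        rw [div_pow, hc, div_div_cancel₀ (pow_ne_zero 2 hy0)]
      have hen : ‖ea D * ρ‖ < ‖ea x‖ := by
        rw [mul_comm, nem]
        exact (mul_lt1 hρ1 (by rw [nem, hDn]; norm_num)).trans_le hx1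
      refine near hπ (sub_mem (em_mem _ _) hem) (v := ea x)
        ⟨ea ((2 * y + 1) / (2 * x) / c), em_mem _ _, by rw [← map_pow, h2]⟩ ?_
      rw [sub_sub_cancel, sub_eq_add_neg, add_eq (by rwa [norm_neg])]
      exact hen

end Vale.Agent.P014Y
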