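import Vale.Agent.P014Z.Mel
import Vale.Agent.P014.H687.LFinv

/-!
# P014Y: the `L`-function, the minimal equation and the real period of the twists
-/

open WeierstrassCurve MeasureTheory
open P004G P004G.ML
open Vale.Agent.P004H Vale.Agent.P014 Vale.Agent.P014Z

namespace Vale.Agent.P014Y.Lf

theorem short (D : ℤ) : tw11 D = (⟨Units.mk0 6 (by norm_num), -12 * D, 0, 108⟩ : VariableChange ℚ) •
    Ec (-13392 * D ^ 2) (-1080432 * D ^ 3) := by
  ext <;> simp [tw11, Ec, variableChange_a₁, variableChange_a₂, variableChange_a₃,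
    variableChange_a₄, variableChange_a₆] <;> ring

theorem lf : LF := by
  intro m hs h4
  have hD := Mel.fund hs h4
  have hA : LD (H742.LT (-(m : ℤ))) :=
    (H742.allMLG (-13392) (-1080432) (by norm_num) _ hD).1 (H742.baseKF.hasse _ hD)
  have hF := H871.feq hD (H742.r7F _ hD)
  have e : ∀ n, (tw11 (-m)).LFunction n = H742.LT (-(m : ℤ)) n := fun n => by
    rw [short, H687.LFunction_smul]
    · rfl
    · have h0 : (m : ℚ) ≠ 0 := by exact_mod_cast (by omega : m ≠ 0)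
      have : (Ec (-13392 * (-(m : ℤ)) ^ 2) (-1080432 * (-(m : ℤ)) ^ 3)).Δ =
          -(6 ^ 12 * 11 ^ 5 * (m : ℚ) ^ 6) := by
        simp only [Ec, Δ, b₂, b₄, b₆, b₈]
        push_cast
        ring
      rw [this]
      exact neg_ne_zero.2 (by positivity)
  refine ⟨fun n => by rw [e, Mel.coef hs h4], _, (Rk.isL_PhiA hA hF).1, fun s hs' => ?_⟩
  have h1 := (Rk.summable_dirC hA hs').hasSum
  rw [← (Rk.isL_PhiA hA hF).2 s hs'] at h1
  refine h1.congr_fun fun n => ?_
  rw [LSeries.term_def]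
  split_ifs with hn
  · rw [hn, hA.zero]
    simp
  · rw [e]

theorem six {p D : ℤ} (hp : Prime p) (hD : ¬ p ∣ D) : ¬ p ^ 6 ∣ 11 ^ 5 * D ^ 6 := fun h => by
  have h1 : p ^ 6 ∣ 11 ^ 5 :=
    (IsCoprime.pow ((hp.coprime_iff_not_dvd).2 hD)).dvd_of_dvd_mul_right h
  have h2 : p ∣ 11 := hp.dvd_of_dvd_pow ((dvd_pow_self p (by norm_num)).trans h1)
  have h3 := (hp.associated_of_dvd (Int.prime_iff_natAbs_prime.2 (by norm_num)) h2).symm.dvd
  have h4 := (pow_dvd_pow_of_dvd h3 6).trans h1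
  norm_num at h4

theorem twelve {p D : ℤ} (hp : Prime p) (hD : Squarefree D) : ¬ p ^ 12 ∣ 11 ^ 5 * D ^ 6 := fun h => by
  by_cases h1 : p ∣ D
  · obtain ⟨d, rfl⟩ := h1
    refine six hp (D := d) (fun ⟨e, he⟩ => hp.not_isUnit (hD p ⟨e, by rw [he]; ring⟩)) ?_
    refine (mul_dvd_mul_iff_left (pow_ne_zero 6 hp.ne_zero)).1 ?_
    rwa [← pow_add, show p ^ 6 * (11 ^ 5 * d ^ 6) = 11 ^ 5 * (p * d) ^ 6 by ring]
  · exact six hp h1 ((pow_dvd_pow p (by norm_num)).trans h)

theorem min : MIN := by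
  intro D hs h4
  have hΔ : (tw11 D).Δ = -11 ^ 5 * (D : ℚ) ^ 6 := by
    simp only [tw11, Δ, b₂, b₄, b₆, b₈]
    ring
  refine ⟨?_, fun C hC => ?_⟩
  · obtain ⟨k, rfl⟩ : ∃ k, D = 4 * k + 1 := ⟨D / 4, by omega⟩
    refine ⟨⟨0, -(4 * k + 1), 1, -10 * (4 * k + 1) ^ 2,
      -(1264 * k ^ 3 + 948 * k ^ 2 + 237 * k + 20)⟩, ?_⟩
    ext <;> simp [tw11]
    ring
  · obtain ⟨W, hW⟩ := hC.integral
    have h1 : (C • tw11 D).Δ = (W.Δ : ℚ) := by
      rw [hW, baseChange, map_Δ]
      rfl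
    rw [variableChange_Δ] at h1 ⊢
    set w : ℚ := ((C.u⁻¹ : ℚˣ) : ℚ) with hw
    have w0 : w ≠ 0 := Units.ne_zero _
    have h2 : (w.den : ℤ) ^ 12 ∣ w.num ^ 12 * (11 ^ 5 * D ^ 6) := by
      refine ⟨-W.Δ, ?_⟩
      have h3 := w.mul_den_eq_num
      rw [hΔ] at h1
      qify
      rw [← h3]
      linear_combination -(w.den : ℚ) ^ 12 * h1
    have h3 : (w.den : ℤ) ^ 12 ∣ 11 ^ 5 * D ^ 6 :=
      (IsCoprime.pow w.isCoprime_num_den.symm).dvd_of_dvd_mul_left h2
    have h4 : w.den = 1 := by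
      by_contra hc
      obtain ⟨p, hp, hd⟩ := Nat.exists_prime_and_dvd hc
      exact twelve (Nat.prime_iff_prime_int.1 hp) hs
        ((pow_dvd_pow_of_dvd (Int.natCast_dvd_natCast.2 hd) 12).trans h3)
    have h5 : (1 : ℚ) ≤ |w| := by
      rw [← Rat.coe_int_num_of_den_eq_one h4]
      exact_mod_cast Int.one_le_abs (Rat.num_ne_zero.2 w0)
    rw [abs_mul, abs_pow]
    exact le_mul_of_one_le_left (abs_nonneg _) (one_le_pow₀ h5)

theorem rp : RP := by
  intro m hm
  have m0 : (0 : ℝ) < m := by exact_mod_cast hm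
  have e : ∀ t : ℝ, psi (tw11 (-m)) (-m * t) = m ^ 2 * (m * -psi0 t) := fun t => by
    simp only [P014.psi, tw11, psi0, b₂, b₄, b₆]
    push_cast
    ring
  have m1 : MeasurableSet {x : ℝ | 0 < psi (tw11 (-m)) x} :=
    (isOpen_lt continuous_const (by unfold P014.psi; fun_prop)).measurableSet
  have m2 : MeasurableSet {x : ℝ | psi0 x < 0} :=
    (isOpen_lt (by unfold psi0; fun_prop) continuous_const).measurableSet
  have h := Measure.integral_comp_mul_left
    ({x : ℝ | 0 < psi (tw11 (-m)) x}.indicator fun x => 2 / √(psi (tw11 (-m)) x)) (-m)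
  have h1 : ∀ t : ℝ, ({x : ℝ | 0 < psi (tw11 (-m)) x}.indicator
      fun x => 2 / √(psi (tw11 (-m)) x)) (-m * t) =
      1 / (m * √m) * {x : ℝ | psi0 x < 0}.indicator (fun x => 2 / √(-psi0 x)) t := fun t => by
    by_cases ht : psi0 t < 0
    · have h2 : 0 < psi (tw11 (-m)) (-m * t) := by
        rw [e]
        exact mul_pos (by positivity) (mul_pos m0 (neg_pos.2 ht))
      rw [Set.indicator_of_mem (by exact h2), Set.indicator_of_mem (by exact ht), e,
        Real.sqrt_mul (sq_nonneg _), Real.sqrt_sq m0.le, Real.sqrt_mul m0.le]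
      ring
    · have h2 : ¬ 0 < psi (tw11 (-m)) (-m * t) := by
        rw [e, not_lt]
        exact mul_nonpos_of_nonneg_of_nonpos (by positivity)
          (mul_nonpos_of_nonneg_of_nonpos m0.le (neg_nonpos.2 (not_lt.1 ht)))
      rw [Set.indicator_of_notMem (by exact h2), Set.indicator_of_notMem (by exact ht), mul_zero]
  simp only [h1] at h
  rw [integral_const_mul, integral_indicator m1, integral_indicator m2, abs_inv, abs_neg,
    abs_of_pos m0, smul_eq_mul] at h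
  have s0 : 0 < √m := Real.sqrt_pos.2 m0
  unfold realPeriod Im0
  field_simp at h ⊢
  linear_combination -h

end Vale.Agent.P014Y.Lf
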