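import Vale.Agent.P014Y.SkA
import Vale.Agent.P014Y.Sk
import Vale.Agent.P004H.H742.CoF

/-!
# P014Y: parity of the coefficients, quadratic residues
-/

open scoped NumberTheorySymbols

namespace Vale.Agent.P014Y.Qr

theorem fix_int (q : ℕ) [Fact q.Prime] {K : Type} [Field K] [CharP K q] {x : K} (hx : x ^ q = x) :
    ∃ n : ℤ, (n : K) = x :=
  (mem_bot_iff_intCast q K).1 ((Subfield.mem_bot_iff_pow_eq_self K q).2 hx)

theorem sq_neg (q : ℕ) [hq : Fact q.Prime] (h2 : q ≠ 2)
    (h : ∀ x : ZMod q, 4 * x ^ 3 - 4 * x ^ 2 - 40 * x - 79 ≠ 0) :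
    ∃ d : ZMod q, d ^ 2 = -11 ^ 5 := by
  let K := AlgebraicClosure (ZMod q)
  have inj : Function.Injective (algebraMap (ZMod q) K) := (algebraMap (ZMod q) K).injective
  have h4 : (4 : K) ≠ 0 := by
    have h2' : (2 : K) ≠ 0 := by
      intro h0
      have : (q : ℕ) ∣ 2 := (CharP.cast_eq_zero_iff K q 2).1 (by exact_mod_cast h0)
      exact h2 ((Nat.prime_dvd_prime_iff_eq hq.out Nat.prime_two).1 this)
    have : (4 : K) = 2 * 2 := by norm_num
    rw [this]; exact mul_ne_zero h2' h2'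
  let φ : K →+* K := frobenius K q
  have hφ : ∀ x, φ x = x ^ q := fun x => rfl
  let f : K → K := fun x => 4 * x ^ 3 - 4 * x ^ 2 - 40 * x - 79
  have hf : ∀ x, f x = 0 → f (φ x) = 0 := by
    intro x hx
    have := congrArg φ hx
    simpa [f, map_ofNat] using this
  have nf : ∀ x, f x = 0 → φ x ≠ x := by
    intro x hx hfx
    obtain ⟨n, rfl⟩ := fix_int q (x := x) hfx
    refine h n (inj ?_)
    simpa [f, map_ofNat] using hx
  obtain ⟨r, hr⟩ : ∃ r, f r = 0 := by
    let P : Polynomial K := Polynomial.C 4 * Polynomial.X ^ 3 + Polynomial.C (-4) * Polynomial.X ^ 2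
      + Polynomial.C (-40) * Polynomial.X + Polynomial.C (-79)
    have hd : P.degree = 3 := Polynomial.degree_cubic h4
    obtain ⟨r, hr⟩ := IsAlgClosed.exists_root P (by rw [hd]; norm_num)
    refine ⟨r, ?_⟩
    have : P.eval r = 0 := hr
    simp only [P, Polynomial.eval_add, Polynomial.eval_mul, Polynomial.eval_C, Polynomial.eval_pow,
      Polynomial.eval_X] at this
    simp only [f]
    linear_combination this
  have hs := hf r hr
  have hrs := nf r hr
  set s := φ r with hsdef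
  have e1 : 4 * (r ^ 2 + r * s + s ^ 2) - 4 * (r + s) - 40 = 0 := by
    refine mul_left_cancel₀ (sub_ne_zero.2 hrs) ?_
    simp only [f] at hr hs
    linear_combination hs - hr
  have fac : ∀ x, f x = 4 * ((x - r) * (x - s) * (x - (1 - r - s))) := by
    intro x
    simp only [f] at hr hs ⊢
    linear_combination hr + (x - r) * e1
  have ht : f (1 - r - s) = 0 := by rw [fac]; ring
  have hφs : φ s = 1 - r - s := by
    have h0 := hf s hs
    rw [fac] at h0
    rcases mul_eq_zero.1 ((mul_eq_zero.1 h0).resolve_left h4) with h1 | h1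
    · rcases mul_eq_zero.1 h1 with h1 | h1
      · exfalso
        refine nf _ ht ?_
        rw [map_sub, map_sub, map_one, ← hsdef, sub_eq_zero.1 h1]
        ring
      · exact absurd (sub_eq_zero.1 h1) (nf s hs)
    · exact sub_eq_zero.1 h1
  have hδ : φ (4 * ((r - s) * (s - (1 - r - s)) * (1 - r - s - r))) =
      4 * ((r - s) * (s - (1 - r - s)) * (1 - r - s - r)) := by
    simp only [map_mul, map_sub, map_one, map_ofNat, hφs, ← hsdef]
    ring
  obtain ⟨n, hn⟩ := fix_int q (K := K) hδ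
  refine ⟨n, inj ?_⟩
  simp only [map_pow, map_neg, map_ofNat, map_intCast, hn]
  have ha : r * s + s * (1 - r - s) + (1 - r - s) * r = -10 := by
    refine mul_left_cancel₀ h4 ?_
    linear_combination -e1
  have hc : 4 * (r * s * (1 - r - s)) = 79 := by
    have := fac 0
    simp only [f] at this
    linear_combination this
  have key : ∀ a c : K, r * s + s * (1 - r - s) + (1 - r - s) * r = a →
      4 * (r * s * (1 - r - s)) = c → (4 * ((r - s) * (s - (1 - r - s)) * (1 - r - s - r))) ^ 2 =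
      16 * a ^ 2 - 64 * a ^ 3 - 16 * c + 72 * a * c - 27 * c ^ 2 := by
    rintro _ _ rfl rfl
    ring
  rw [key _ _ ha hc]
  norm_num

theorem ne11 {q : ℕ} (h : ∀ x : ZMod q, 4 * x ^ 3 - 4 * x ^ 2 - 40 * x - 79 ≠ 0) : q ≠ 11 := by
  rintro rfl
  exact h 5 (by decide)

theorem jac_prime (q : ℕ) (hq : q.Prime) (h2 : q ≠ 2)
    (h : ∀ x : ZMod q, 4 * x ^ 3 - 4 * x ^ 2 - 40 * x - 79 ≠ 0) : J(-11 | q) = 1 := by
  have : Fact q.Prime := ⟨hq⟩
  obtain ⟨d, hd⟩ := sq_neg q h2 h
  have h11 : (11 : ZMod q) ≠ 0 := by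
    intro h0
    have : q ∣ 11 := (CharP.cast_eq_zero_iff (ZMod q) q 11).1 (by exact_mod_cast h0)
    exact ne11 h ((Nat.prime_dvd_prime_iff_eq hq (by norm_num)).1 this)
  rw [← jacobiSym.legendreSym.to_jacobiSym]
  have hne : ((-11 : ℤ) : ZMod q) ≠ 0 := by
    push_cast
    exact neg_ne_zero.2 h11
  refine (legendreSym.eq_one_iff q hne).2 ⟨d / 11 ^ 2, ?_⟩
  push_cast
  field_simp
  linear_combination -hd

theorem jac_all (a : ℤ) (M : ℕ) (hM : M ≠ 0) (h : ∀ q : ℕ, q.Prime → q ∣ M → J(a | q) = 1) :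
    J(a | M) = 1 := by
  induction M using Nat.recOnMul with
  | zero => exact absurd rfl hM
  | one => exact jacobiSym.one_right a
  | prime p hp => exact h p hp dvd_rfl
  | mul b c ihb ihc =>
    have hb : b ≠ 0 := left_ne_zero_of_mul hM
    have hc : c ≠ 0 := right_ne_zero_of_mul hM
    rw [jacobiSym.mul_right' a hb hc, ihb hb fun q hq hd => h q hq (hd.mul_right c),
      ihc hc fun q hq hd => h q hq (hd.mul_left b), one_mul]

theorem even_cnt (q : ℕ) (hq : q.Prime)
    (h : ∀ x : ZMod q, 4 * x ^ 3 - 4 * x ^ 2 - 40 * x - 79 ≠ 0) :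
    Even (Nat.card {z : ZMod q × ZMod q // z.2 ^ 2 + z.2 = z.1 ^ 3 - z.1 ^ 2 - 10 * z.1 - 20}) := by
  classical
  have : Fact q.Prime := ⟨hq⟩
  rw [Nat.card_eq_fintype_card, ← ZMod.natCast_eq_zero_iff_even, ← Finset.card_univ,
    Finset.card_eq_sum_ones]
  push_cast
  refine Finset.sum_involution (fun z _ => ⟨(z.1.1, -1 - z.1.2), by
    have := z.2
    simp only
    linear_combination this⟩) (fun _ _ => by decide) ?_ (fun _ _ => Finset.mem_univ _) ?_
  · intro z _ _ hz
    have h1 : -1 - z.1.2 = z.1.2 := congrArg (fun w => w.1.2) hz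
    have h0 := z.2
    refine h z.1.1 ?_
    linear_combination -4 * h0 - (2 * z.1.2 + 1) * h1
  · intro z _
    refine Subtype.ext (Prod.ext rfl ?_)
    simp only
    ring

end Vale.Agent.P014Y.Qr

namespace Vale.Agent.P014Y

open Vale.Agent.P004H

theorem odd_a : ODD := by
  intro q hq h2 h
  rw [H742.coF.tr q hq (Qr.ne11 h)]
  exact (Int.odd_coe_nat q |>.2 (hq.odd_of_ne_two h2)).sub_even
    ((Int.even_coe_nat _).2 (Qr.even_cnt q hq h))

theorem qr : QR := by
  rintro M ⟨-, h4, h⟩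
  have hodd : Odd M := Nat.odd_iff.2 (by omega)
  have h2 : ∀ q : ℕ, q ∣ M → q ≠ 2 := by
    rintro q hd rfl
    omega
  have h1 : J(-11 | M) = 1 := Qr.jac_all _ M (by omega) fun q hq hd =>
    Qr.jac_prime q hq (h2 q hd) (h q hq hd)
  have h3 : J(11 | M) = 1 := by
    rw [jacobiSym.neg 11 hodd, ZMod.χ₄_nat_one_mod_four h4, one_mul] at h1
    exact h1
  refine ⟨h3, ?_, ?_⟩
  · rw [jacobiSym.quadratic_reciprocity_one_mod_four h4 (by decide : Odd 11)]
    exact h3
  · refine Nat.Coprime.mul_right (k := M) (m := 2) (n := 11) ?_ ?_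
    · exact ((Nat.Prime.coprime_iff_not_dvd Nat.prime_two).2 fun hd => h2 2 hd rfl).symm
    · exact ((Nat.Prime.coprime_iff_not_dvd (by norm_num : Nat.Prime 11)).2 fun hd =>
        Qr.ne11 (h 11 (by norm_num) hd) rfl).symm

end Vale.Agent.P014Y
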