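import Vale.Agent.P014Y.Defs
import Vale.Agent.P014Z.An

/-!
# P014Y: statements, analytic half
-/

open WeierstrassCurve Complex Filter Topology
open scoped Real NumberTheorySymbols
open Vale.Agent.P014 (IsHasseWeil realPeriod)
open Vale.Agent.P004H (H792.a)
open Vale.Agent.P014Z (tw11 uF G0 Prim Im0)

noncomputable section

namespace Vale.Agent.P014Y

/-- the modular symbol -/
def sym (r : ℚ) : ℂ := limUnder (𝓝[>] (0 : ℝ)) fun y : ℝ => uF ((r : ℂ) + y * I)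

/-- **SYM** -/
structure SYM : Prop where
  lim : ∀ r : ℚ, Tendsto (fun y : ℝ => uF ((r : ℂ) + y * I)) (𝓝[>] 0) (𝓝 (sym r))
  per : ∀ (r : ℚ) (n : ℤ), sym (r + n) = sym r
  neg : ∀ r : ℚ, sym (-r) = (starRingEnd ℂ) (sym r)
  gam : ∀ C w, Prim uF 0 C 1 w → ∀ g : G0, g.c ≠ 0 → sym (g.a / (11 * g.c : ℤ)) = w g

/-- **HEC** -/
structure HEC : Prop where
  good : ∀ p : ℕ, p.Prime → p ≠ 11 → ∀ r : ℚ,
    ∑ j ∈ Finset.range p, sym ((r + j) / p) = H792.a p * sym r - sym (p * r)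
  el : ∀ r : ℚ, ∑ j ∈ Finset.range 11, sym ((r + j) / 11) = sym r

/-- **LAM** -/
def LAM : Prop := 0 < Im0 ∧ ∃ Λ : AddSubgroup ℂ,
  (∀ z ∈ Λ, z.re = 0 → ∃ k : ℤ, z.im = k * Im0) ∧
  ∀ a c : ℤ, 0 < c → IsCoprime a c → (11 : ℤ) ∣ c →
    sym (a / c) ∈ Λ ∧ ∃ n : ℤ, 2 * (sym (a / c)).im = n * Im0

/-- **BASE** -/
def BASE : Prop := ∑ a ∈ Finset.range 11, (J(a | 11) : ℂ) * sym (a / 11) = 2 * (I * Im0)

/-- **ODD** -/
def ODD : Prop := ∀ q : ℕ, q.Prime → q ≠ 2 →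
  (∀ x : ZMod q, 4 * x ^ 3 - 4 * x ^ 2 - 40 * x - 79 ≠ 0) → Odd (H792.a q)

/-- **GEN** -/
def GEN : Prop := ∀ M : ℕ, Good M → ∃ m : ℤ, m % 4 = 2 ∧
  ∑ a ∈ Finset.range (11 * M), (J(a | 11 * M) : ℂ) * sym (a / (11 * M : ℕ)) = m * (I * Im0)

/-- **ANA** -/
def ANA : Prop := ∀ M : ℕ, Good M → (∃ L, IsHasseWeil (tw11 (-11 * M)) L) ∧
  0 < realPeriod (tw11 (-11 * M)) ∧ ∃ m : ℤ, m % 4 = 2 ∧
    ∀ L, IsHasseWeil (tw11 (-11 * M)) L → L 1 = m * realPeriod (tw11 (-11 * M))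

end Vale.Agent.P014Y
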