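import Vale.Agent.P014Y.SkA

/-!
# P014Y: the modular symbols
-/

open Complex Filter Topology
open scoped Real
open Vale.Agent.P014Z (uF G0 Prim PRF)
open Vale.Agent.P004H.H204 (qq)

noncomputable section

namespace Vale.Agent.P014Y

namespace SymA

variable {P : ℂ → ℂ} {C δ : ℂ} {w : G0 → ℂ}

/-- the path to the cusp at infinity -/
def pz (c d : ℤ) (y : ℝ) : ℂ := -(d : ℂ) / c + I / (c ^ 2 * y)

theorem pz_im (c d : ℤ) (y : ℝ) : (pz c d y).im = 1 / (c : ℝ) ^ 2 * y⁻¹ := by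
  have h : pz c d y = ((-(d : ℝ) / c : ℝ) : ℂ) + ((1 / (c : ℝ) ^ 2 * y⁻¹ : ℝ) : ℂ) * I := by
    unfold pz
    push_cast
    ring
  rw [h, add_im, ofReal_im, im_ofReal_mul, I_im, mul_one, zero_add]

theorem pz_pos {c : ℤ} (hc : c ≠ 0) (d : ℤ) {y : ℝ} (hy : 0 < y) : 0 < (pz c d y).im := by
  rw [pz_im]
  have h : (c : ℝ) ≠ 0 := by exact_mod_cast hc
  positivity

theorem pz_top {c : ℤ} (hc : c ≠ 0) (d : ℤ) :
    Tendsto (fun y => (pz c d y).im) (𝓝[>] 0) atTop := by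
  simp only [pz_im]
  have h : (c : ℝ) ≠ 0 := by exact_mod_cast hc
  exact tendsto_inv_nhdsGT_zero.const_mul_atTop (by positivity)

theorem pz_mob {a b c d : ℤ} (h : a * d - b * c = 1) (hc : c ≠ 0) {y : ℝ} (hy : 0 < y) :
    (a * pz c d y + b) / (c * pz c d y + d) = (a : ℂ) / c + y * I := by
  have h1 : (c : ℂ) ≠ 0 := by exact_mod_cast hc
  have h2 : (y : ℂ) ≠ 0 := by exact_mod_cast hy.ne'
  have h3 : (a : ℂ) * d - b * c = 1 := by exact_mod_cast h
  have h4 : (c : ℂ) * pz c d y + d = I / (c * y) := by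
    unfold pz
    field_simp
    ring
  rw [h4, div_eq_iff (div_ne_zero I_ne_zero (mul_ne_zero h1 h2))]
  unfold pz
  field_simp
  linear_combination (-(c : ℂ) * y) * h3 - (c : ℂ) * y * I_sq

theorem zero_lim (hP : Prim P 0 C δ w) {z : ℝ → ℂ} {l : Filter ℝ}
    (hz : Tendsto (fun y => (z y).im) l atTop) : Tendsto (fun y => P (z y)) l (𝓝 0) := by
  rw [Metric.tendsto_nhds]
  intro ε hε
  obtain ⟨Y, hY⟩ := hP.inf (ε / 2) (by positivity)
  filter_upwards [hz.eventually_ge_atTop Y] with y hy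
  have h1 := hY _ hy
  rw [zero_mul, sub_zero] at h1
  rw [dist_zero_right]
  linarith

theorem lim_gam (hP : Prim P 0 C δ w) (g : G0) (hg : g.c ≠ 0) :
    Tendsto (fun y : ℝ => P ((g.a : ℂ) / (11 * g.c : ℤ) + y * I)) (𝓝[>] 0) (𝓝 (w g)) := by
  have hc : 11 * g.c ≠ 0 := by omega
  have h1 := (zero_lim hP (pz_top hc g.d)).add_const (w g)
  rw [zero_add] at h1
  refine h1.congr' ?_
  filter_upwards [self_mem_nhdsWithin] with y hy
  rw [← hP.mob g _ (pz_pos hc g.d hy), G0.mob, pz_mob g.det hc hy]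

theorem lim_W (hP : Prim P 0 C δ w) {a b c d : ℤ} (h : a * (11 * d) - b * c = 1) (hc : c ≠ 0) :
    ∃ L, Tendsto (fun y : ℝ => P ((a : ℂ) / c + y * I)) (𝓝[>] 0) (𝓝 L) := by
  let g : G0 := ⟨b, -a, d, -c, by linear_combination h⟩
  have h0 : ∀ z : ℂ, (z / 11).im = 1 / 11 * z.im := fun z => by
    rw [show z / 11 = ((1 / 11 : ℝ) : ℂ) * z by push_cast; ring, im_ofReal_mul]
  have h1 : Tendsto (fun y => (pz c (11 * d) y / 11).im) (𝓝[>] 0) atTop := by
    simp only [h0]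
    exact (pz_top hc _).const_mul_atTop (by norm_num)
  refine ⟨_, (((zero_lim hP h1).const_sub C).add_const (w g)).congr' ?_⟩
  filter_upwards [self_mem_nhdsWithin] with y hy
  have h2 := pz_pos hc (11 * d) hy
  have h3 := P004H.H792.im_div11 h2
  have h4 := P004H.H792.im_ne h2
  have h5 := P004H.H792.den_ne' h h2
  have h6 := P004H.H792.im_S h2
  have h7 := P004H.H792.den_ne' g.det h6
  rw [← hP.W _ h3, show 11 * (pz c (11 * d) y / 11) = pz c (11 * d) y by ring, ← hP.mob g _ h6,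
    ← pz_mob h hc hy, G0.mob]
  congr 1
  rw [div_eq_div_iff h7 h5]
  simp only [g]
  push_cast
  field_simp
  ring

theorem lim_ex (hP : Prim P 0 C δ w) (r : ℚ) :
    ∃ L, Tendsto (fun y : ℝ => P ((r : ℂ) + y * I)) (𝓝[>] 0) (𝓝 L) := by
  have hr : (r : ℂ) = (r.num : ℂ) / ((r.den : ℤ) : ℂ) := by
    rw [Rat.cast_def]
    push_cast
    rfl
  have hc : (r.den : ℤ) ≠ 0 := by exact_mod_cast r.den_nz
  have hco : IsCoprime r.num (r.den : ℤ) := Int.isCoprime_iff_gcd_eq_one.2 r.reduced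
  rw [hr]
  by_cases h : (11 : ℤ) ∣ r.den
  · obtain ⟨c, e⟩ := h
    obtain ⟨d, b, h1⟩ := hco
    rw [e] at hc h1 ⊢
    exact ⟨_, lim_gam hP ⟨r.num, -b, c, d, by linear_combination h1⟩ (by
      intro h0
      exact hc (by rw [show c = 0 from h0, mul_zero]))⟩
  · have h11 : IsCoprime (11 : ℤ) (r.den : ℤ) :=
      (Prime.coprime_iff_not_dvd (Int.prime_iff_natAbs_prime.2 (by norm_num))).2 h
    obtain ⟨d, b, h1⟩ := hco.mul_left h11
    exact lim_W hP (b := -b) (d := d) (by linear_combination h1) hc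

theorem uF_per (z : ℂ) (n : ℤ) : uF (z + n) = uF z := by
  have h : qq (z + n) = qq z := by
    unfold qq
    rw [mul_add, Complex.exp_add, mul_comm _ (n : ℂ), Complex.exp_int_mul_two_pi_mul_I, mul_one]
  unfold uF
  rw [h]

end SymA

open SymA in
/-- **SYM** -/
theorem sym_of (h : PRF) : SYM := by
  obtain ⟨⟨C, w, hP⟩, -⟩ := h
  have h1 : ∀ r : ℚ, Tendsto (fun y : ℝ => uF ((r : ℂ) + y * I)) (𝓝[>] 0) (𝓝 (sym r)) :=
    fun r => tendsto_nhds_limUnder (lim_ex hP r)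
  refine ⟨h1, fun r n => ?_, fun r => ?_, fun C w hP g hg => ?_⟩
  · unfold sym
    congr 1
    funext y
    rw [← uF_per ((r : ℂ) + y * I) n]
    congr 1
    push_cast
    ring
  · refine tendsto_nhds_unique (h1 (-r)) ?_
    refine ((Complex.continuous_conj.tendsto _).comp (h1 r)).congr' ?_
    filter_upwards [self_mem_nhdsWithin] with y hy
    have h2 := hP.cj ((r : ℂ) + y * I) (by simpa using hy)
    rw [one_mul] at h2
    rw [Function.comp_apply, ← h2]
    congr 1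
    simp only [map_add, map_mul, Complex.conj_ofReal, Complex.conj_I, map_ratCast]
    push_cast
    ring
  · refine tendsto_nhds_unique (h1 _) ?_
    have h2 := lim_gam hP g hg
    rwa [Rat.cast_div, Rat.cast_intCast, Rat.cast_intCast]

end Vale.Agent.P014Y
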