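import Vale.Agent.P014Y.Sk

/-!
# P014Y, row TAM0: the Tamagawa numbers away from eleven are one
-/

open WeierstrassCurve
open scoped Classical
open Vale.Agent.P014 (tamagawa NonsingularReduction)
open Vale.Agent.P014Z (tw11)

namespace Vale.Agent.P014Y

variable {p : ℕ} [Fact p.Prime]

theorem t0_add_lt {x y : ℚ_[p]} {r : ℝ} (hx : ‖x‖ < r) (hy : ‖y‖ < r) : ‖x + y‖ < r :=
  (IsUltrametricDist.norm_add_le_max x y).trans_lt (max_lt hx hy)

theorem t0_add_le {x y : ℚ_[p]} {r : ℝ} (hx : ‖x‖ ≤ r) (hy : ‖y‖ ≤ r) : ‖x + y‖ ≤ r :=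
  (IsUltrametricDist.norm_add_le_max x y).trans (max_le hx hy)

theorem t0_mul_le {x y : ℚ_[p]} (hx : ‖x‖ ≤ 1) (hy : ‖y‖ ≤ 1) : ‖x * y‖ ≤ 1 := by
  rw [norm_mul]; exact mul_le_one₀ hx (norm_nonneg _) hy

theorem t0_mul_lt {x y : ℚ_[p]} (hx : ‖x‖ ≤ 1) (hy : ‖y‖ < 1) : ‖x * y‖ < 1 := by
  rw [norm_mul]; exact mul_lt_one_of_nonneg_of_lt_one_right hx (norm_nonneg _) hy

theorem t0_int (n : ℤ) : ‖(n : ℚ_[p])‖ ≤ 1 := Padic.norm_int_le_one n

theorem t0_unit {n : ℤ} (h : ¬ (p : ℤ) ∣ n) : ‖(n : ℚ_[p])‖ = 1 :=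
  le_antisymm (t0_int n) (not_lt.mp fun h1 => h (Padic.norm_intCast_lt_one_iff.mp h1))

/-- the equation of the curve -/
theorem t0_eq (D : ℤ) {K : Type} [Field K] [Algebra ℚ K] {x y : K}
    (h : ((tw11 D)⁄K).toAffine.Nonsingular x y) : (2 * y + 1) ^ 2 = ps (D : K) x := by
  have : CharZero K := algebraRat.charZero K
  have h1 := h.1
  rw [Affine.equation_iff] at h1
  simp only [tw11, baseChange, map_a₁, map_a₂, map_a₃, map_a₄, map_a₆, map_zero, map_one, map_neg,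
    map_mul, map_pow, map_div₀, map_sub, map_intCast, map_ofNat] at h1
  unfold ps
  linear_combination 4 * h1

/-- the primes of good reduction -/
theorem t0_good {D : ℤ} (hD : ¬ (p : ℤ) ∣ 11 * D) {x : ℚ_[p]} (hx : ‖x‖ ≤ 1) :
    1 ≤ ‖pd (D : ℚ_[p]) x‖ ∨ 1 ≤ ‖ps (D : ℚ_[p]) x‖ := by
  by_contra hc
  rw [not_or, not_le, not_le] at hc
  have hp : Prime (p : ℤ) := Nat.prime_iff_prime_int.mp Fact.out
  have h1 : ¬ (p : ℤ) ∣ 11 ^ 5 * D ^ 4 := by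
    intro h
    rcases hp.dvd_or_dvd h with h | h
    · exact hD ((hp.dvd_of_dvd_pow h).mul_right _)
    · exact hD ((hp.dvd_of_dvd_pow h).mul_left _)
  have h2 := t0_unit h1
  have h3 : ((11 ^ 5 * D ^ 4 : ℤ) : ℚ_[p]) =
      (((744 : ℤ) : ℚ_[p]) * x + ((-2749 * D : ℤ) : ℚ_[p])) * ps (D : ℚ_[p]) x +
      (((-992 : ℤ) : ℚ_[p]) * (x * x) + ((3996 * D : ℤ) : ℚ_[p]) * x +
        ((5612 * D ^ 2 : ℤ) : ℚ_[p])) * pd (D : ℚ_[p]) x := by
    unfold ps pd; push_cast; ring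
  have h4 : ‖((11 ^ 5 * D ^ 4 : ℤ) : ℚ_[p])‖ < 1 := by
    rw [h3]
    refine t0_add_lt (t0_mul_lt (t0_add_le (t0_mul_le (t0_int _) hx) (t0_int _)) hc.2)
      (t0_mul_lt (t0_add_le (t0_add_le (t0_mul_le (t0_int _) (t0_mul_le hx hx))
        (t0_mul_le (t0_int _) hx)) (t0_int _)) hc.1)
  exact h4.ne h2

theorem t0_noroot (hn : ∀ x : ZMod p, 4 * x ^ 3 - 4 * x ^ 2 - 40 * x - 79 ≠ 0) {x : ℚ_[p]}
    (hx : ‖x‖ ≤ 1) : ‖ps 1 x‖ = 1 := by
  let z : ℤ_[p] := ⟨x, hx⟩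
  let w : ℤ_[p] := 4 * z ^ 3 - 4 * z ^ 2 - 40 * z - 79
  have hw : (w : ℚ_[p]) = ps 1 x := by
    simp only [w, z, ps]
    push_cast
    simp only [mul_one, one_pow]
    rfl
  rw [← hw, PadicInt.padic_norm_e_of_padicInt]
  refine le_antisymm (PadicInt.norm_le_one w) (not_lt.mp fun h => hn (PadicInt.toZMod z) ?_)
  have h1 : w ∈ RingHom.ker (PadicInt.toZMod : ℤ_[p] →+* ZMod p) := by
    rw [PadicInt.ker_toZMod, IsLocalRing.mem_maximalIdeal, PadicInt.mem_nonunits]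
    exact h
  rw [RingHom.mem_ker] at h1
  simpa only [w, map_sub, map_mul, map_pow, map_ofNat] using h1

/-- the primes dividing the twisting parameter once -/
theorem t0_bad {D : ℤ} (h2 : ¬ (p : ℤ) ∣ 2) (h1 : (p : ℤ) ∣ D) (hD : ¬ (p : ℤ) ^ 2 ∣ D)
    (hn : ∀ x : ZMod p, 4 * x ^ 3 - 4 * x ^ 2 - 40 * x - 79 ≠ 0) {x v : ℚ_[p]} (hx : ‖x‖ ≤ 1)
    (hv : v ^ 2 = ps (D : ℚ_[p]) x) : 1 ≤ ‖v‖ := by
  have hp : Prime (p : ℤ) := Nat.prime_iff_prime_int.mp Fact.out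
  have hp1 : (1 : ℝ) < p := by exact_mod_cast (Fact.out : p.Prime).one_lt
  have hDlt : ‖(D : ℚ_[p])‖ < 1 := Padic.norm_intCast_lt_one_iff.mpr h1
  obtain ⟨d, rfl⟩ := h1
  have hd : ¬ (p : ℤ) ∣ d := fun h => hD (by rw [pow_two]; exact mul_dvd_mul_left _ h)
  have hDn : ‖(((p : ℤ) * d : ℤ) : ℚ_[p])‖ = (p : ℝ)⁻¹ := by
    push_cast
    rw [norm_mul, t0_unit hd, mul_one, Padic.norm_p]
  set E : ℚ_[p] := (((p : ℤ) * d : ℤ) : ℚ_[p]) with hE
  rcases hx.eq_or_lt with hx1 | hx1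
  · have h4 : ‖((4 : ℤ) : ℚ_[p])‖ = 1 :=
      t0_unit fun h => h2 (hp.dvd_of_dvd_pow (n := 2) (by simpa using h))
    have h5 : ‖((4 : ℤ) : ℚ_[p]) * x ^ 3‖ = 1 := by rw [norm_mul, h4, norm_pow, hx1]; norm_num
    have h6 : ps E x = ((4 : ℤ) : ℚ_[p]) * x ^ 3 + (((-4 : ℤ) : ℚ_[p]) * (x * x) +
        ((-40 : ℤ) : ℚ_[p]) * (E * x) + ((-79 : ℤ) : ℚ_[p]) * (E * E)) * E := by
      unfold ps; push_cast; ring
    have h7 : ‖(((-4 : ℤ) : ℚ_[p]) * (x * x) + ((-40 : ℤ) : ℚ_[p]) * (E * x) +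
        ((-79 : ℤ) : ℚ_[p]) * (E * E)) * E‖ < ‖((4 : ℤ) : ℚ_[p]) * x ^ 3‖ := by
      rw [h5]
      exact t0_mul_lt (t0_add_le (t0_add_le (t0_mul_le (t0_int _) (t0_mul_le hx hx))
        (t0_mul_le (t0_int _) (t0_mul_le hDlt.le hx)))
        (t0_mul_le (t0_int _) (t0_mul_le hDlt.le hDlt.le))) hDlt
    have h8 : ‖v‖ ^ 2 = 1 := by
      rw [← norm_pow, hv, h6, IsUltrametricDist.norm_add_eq_max_of_norm_ne_norm h7.ne',
        max_eq_left h7.le, h5]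
    exact ((pow_eq_one_iff_of_nonneg (norm_nonneg v) two_ne_zero).mp h8).ge
  · exfalso
    have hE0 : E ≠ 0 := by
      rw [← norm_pos_iff, hDn]; positivity
    have h3 : ‖x‖ ≤ (p : ℝ)⁻¹ := by
      have := (Padic.norm_le_pow_iff_norm_lt_pow_add_one x (-1)).mpr (by simpa using hx1)
      simpa using this
    have h4 : ‖x / E‖ ≤ 1 := by
      rw [norm_div, hDn]
      exact div_le_one_of_le₀ h3 (by positivity)
    have h5 : ps E x = E ^ 3 * ps 1 (x / E) := by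
      unfold ps; field_simp
    have h6 : ‖v‖ ^ 2 = (p : ℝ)⁻¹ ^ 3 := by
      rw [← norm_pow, hv, h5, norm_mul, t0_noroot hn h4, mul_one, norm_pow, hDn]
    have hv0 : v ≠ 0 := by
      intro h
      rw [h, norm_zero] at h6
      have : (0 : ℝ) < (p : ℝ)⁻¹ ^ 3 := by positivity
      rw [← h6] at this
      norm_num at this
    rw [Padic.norm_eq_zpow_neg_valuation hv0, ← zpow_natCast, ← zpow_mul, ← zpow_neg_one,
      ← zpow_natCast, ← zpow_mul] at h6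
    have h7 := zpow_right_injective₀ (by positivity) hp1.ne' h6
    push_cast at h7
    omega

theorem t0_all (M : ℕ) (hM : Good M) (h11 : p ≠ 11) (P : Pt (-11 * M) ℚ_[p]) :
    NonsingularReduction (tw11 (-11 * M)) p P := by
  have hp : Prime (p : ℤ) := Nat.prime_iff_prime_int.mp Fact.out
  have h11' : ¬ (p : ℤ) ∣ 11 := fun h =>
    h11 ((Nat.prime_dvd_prime_iff_eq Fact.out (by norm_num)).mp (by exact_mod_cast h))
  rcases P with _ | ⟨x, y, h⟩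
  · trivial
  have he := t0_eq _ h
  have e1 : (((tw11 (-11 * M)).a₁ : ℚ) : ℚ_[p]) * y - (3 * x ^ 2 +
      2 * (((tw11 (-11 * M)).a₂ : ℚ) : ℚ_[p]) * x + (((tw11 (-11 * M)).a₄ : ℚ) : ℚ_[p])) =
      -pd ((-11 * M : ℤ) : ℚ_[p]) x := by
    simp only [tw11, pd]; push_cast; ring
  have e2 : 2 * y + (((tw11 (-11 * M)).a₁ : ℚ) : ℚ_[p]) * x +
      (((tw11 (-11 * M)).a₃ : ℚ) : ℚ_[p]) = 2 * y + 1 := by
    simp only [tw11]; push_cast; ring
  show 1 < ‖x‖ ∨ _ ∨ _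
  rw [e1, e2, norm_neg]
  rcases lt_or_ge 1 ‖x‖ with hx | hx
  · exact Or.inl hx
  right
  by_cases hpM : p ∣ M
  · right
    have hpM' : (p : ℤ) ∣ M := by exact_mod_cast hpM
    refine t0_bad (fun h2 => ?_) (hpM'.mul_left _) (fun h2 => ?_) (hM.2.2 p Fact.out hpM) hx he
    · have h3 : p = 2 :=
        (Nat.prime_dvd_prime_iff_eq Fact.out Nat.prime_two).mp (by exact_mod_cast h2)
      have h4 := hM.2.1
      rw [h3] at hpM
      omega
    · have h3 : (p : ℤ) ^ 2 ∣ M := by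
        refine hp.pow_dvd_of_dvd_mul_left 2 (a := -11) (fun h => h11' (by simpa using h)) h2
      have h4 : p * p ∣ M := by
        rw [← pow_two]; exact_mod_cast h3
      exact (Fact.out : p.Prime).not_isUnit (hM.1 p h4)
  · have hD : ¬ (p : ℤ) ∣ 11 * (-11 * M) := by
      intro h
      rcases hp.dvd_or_dvd h with h | h
      · exact h11' h
      rcases hp.dvd_or_dvd h with h | h
      · exact h11' (by simpa using h)
      · exact hpM (by exact_mod_cast h)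
    rcases t0_good hD hx with h1 | h1
    · exact Or.inl h1
    · right
      rw [← he, norm_pow] at h1
      by_contra hc
      rw [not_le] at hc
      exact absurd (pow_lt_one₀ (norm_nonneg _) hc two_ne_zero) (not_lt.mpr h1)

theorem tam0 : TAM0 := by
  intro M p _ hM h11
  unfold tamagawa
  rw [Set.eq_univ_of_forall (s := {P | NonsingularReduction (tw11 (-11 * M)) p P})
    (t0_all M hM h11), AddSubgroup.closure_univ, AddSubgroup.index_top]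

end Vale.Agent.P014Y
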