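import Vale.Agent.P014Y.Sk

/-!
# P014Y: the Tamagawa number at eleven
-/

open WeierstrassCurve Polynomial
open scoped IntermediateField NumberTheorySymbols Classical
open Vale.Agent.P014 (tamagawa NonsingularReduction)
open Vale.Agent.P014Z (tw11)

noncomputable section

namespace Vale.Agent.P014Y.T11

section

variable {D : ℤ} {K : Type} [Field K] [Algebra ℚ K]

theorem a1 : ((tw11 D)⁄K).toAffine.a₁ = 0 := by simp [tw11]
theorem a2 : ((tw11 D)⁄K).toAffine.a₂ = -(D : K) := by simp [tw11]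
theorem a3 : ((tw11 D)⁄K).toAffine.a₃ = 1 := by simp [tw11]
theorem a4 : ((tw11 D)⁄K).toAffine.a₄ = -10 * (D : K) ^ 2 := by
  have : CharZero K := algebraRat.charZero K
  simp [tw11]
theorem a6 : 4 * ((tw11 D)⁄K).toAffine.a₆ = -79 * (D : K) ^ 3 - 1 := by
  have : CharZero K := algebraRat.charZero K
  simp [tw11]
  field_simp

theorem eqn {x y : K} : ((tw11 D)⁄K).toAffine.Equation x y ↔ (2 * y + 1) ^ 2 = ps (D : K) x := by
  have : CharZero K := algebraRat.charZero K
  rw [Affine.equation_iff, a1, a2, a3, a4]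
  have h := a6 (D := D) (K := K)
  unfold ps
  constructor
  · intro h1
    linear_combination 4 * h1 + h
  · intro h1
    refine mul_left_cancel₀ (by norm_num : (4 : K) ≠ 0) ?_
    linear_combination h1 - h

theorem line {x₁ x₂ y₁ y₂ : K} (h₁ : ((tw11 D)⁄K).toAffine.Equation x₁ y₁)
    (h₂ : ((tw11 D)⁄K).toAffine.Equation x₂ y₂)
    (hxy : ¬(x₁ = x₂ ∧ y₁ = ((tw11 D)⁄K).toAffine.negY x₂ y₂)) {L : Type} [Field L] [Algebra K L]
    {e : L} (he : ps (D : L) e = 0) : ∃ l m : K,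
    (2 * (algebraMap K L l * e + algebraMap K L m) + 1) ^ 2 = 4 * ((algebraMap K L x₁ - e) *
      (algebraMap K L x₂ - e) * (algebraMap K L (((tw11 D)⁄K).toAffine.addX x₁ x₂
        (((tw11 D)⁄K).toAffine.slope x₁ x₂ y₁ y₂)) - e)) := by
  have h := Affine.addPolynomial_slope h₁ h₂ hxy
  rw [Affine.addPolynomial_eq, neg_inj] at h
  generalize ((tw11 D)⁄K).toAffine.addX x₁ x₂ (((tw11 D)⁄K).toAffine.slope x₁ x₂ y₁ y₂) = x₃ at h ⊢
  generalize ((tw11 D)⁄K).toAffine.slope x₁ x₂ y₁ y₂ = l at h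
  refine ⟨l, y₁ - l * x₁, ?_⟩
  have h3 := congrArg (aeval e) h
  have h6 := congrArg (algebraMap K L) (a6 (D := D) (K := K))
  rw [a1, a2, a3, a4] at h3
  simp only [Cubic.toPoly, map_add, map_mul, map_sub, map_neg, map_pow, aeval_X, aeval_C, map_one,
    map_zero, map_intCast, map_ofNat] at h3 h6 ⊢
  unfold ps at he
  linear_combination -4 * h3 + he + h6

end

variable {M : ℕ}

/-- the points with singular reduction -/
def Bad (D : ℤ) : Pt D ℚ_[11] → Prop
  | 0 => False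
  | .some x _ _ => ‖x‖ < 1

/-- the descent map -/
def nu (D : ℤ) (e : PadicAlgCl 11) : Pt D ℚ_[11] → PadicAlgCl 11
  | 0 => 1
  | .some x _ _ => x - e

theorem nD (M : ℕ) : ‖((-11 * M : ℤ) : ℚ_[11])‖ < 1 := by
  rw [Padic.norm_intCast_lt_one_iff]
  exact ⟨-M, by push_cast; ring⟩

theorem small_add {a b : ℚ_[11]} (ha : ‖a‖ < 1) (hb : ‖b‖ < 1) : ‖a + b‖ < 1 :=
  (Padic.nonarchimedean a b).trans_lt (max_lt ha hb)

theorem small_mul {a b : ℚ_[11]} (ha : ‖a‖ < 1) (hb : ‖b‖ ≤ 1) : ‖a * b‖ < 1 := by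
  rw [norm_mul]
  exact mul_lt_one_of_nonneg_of_lt_one_left (norm_nonneg _) ha hb

theorem nint (n : ℤ) : ‖(n : ℚ_[11])‖ ≤ 1 := Padic.norm_int_le_one n

theorem ns_iff (P : Pt (-11 * M) ℚ_[11]) :
    NonsingularReduction (tw11 (-11 * M)) 11 P ↔ ¬ Bad _ P := by
  rcases P with _ | ⟨x, y, h⟩
  · simp [NonsingularReduction, Bad]
  have hD := nD M
  have he := eqn.1 h.1
  generalize hd : ((-11 * M : ℤ) : ℚ_[11]) = d at hD he
  have e1 : (((tw11 (-11 * M)).a₁ : ℚ) : ℚ_[11]) * y - (3 * x ^ 2 +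
      2 * (((tw11 (-11 * M)).a₂ : ℚ) : ℚ_[11]) * x + (((tw11 (-11 * M)).a₄ : ℚ) : ℚ_[11])) =
      -(3 * x ^ 2) + d * (2 * x + 10 * d) := by
    rw [← hd]
    simp [tw11]
    ring
  have e2 : 2 * y + (((tw11 (-11 * M)).a₁ : ℚ) : ℚ_[11]) * x +
      (((tw11 (-11 * M)).a₃ : ℚ) : ℚ_[11]) = 2 * y + 1 := by
    simp [tw11]
  simp only [NonsingularReduction, Bad, e1, e2, not_lt]
  have c : ∀ n : ℤ, ∀ z : ℚ_[11], ‖z‖ ≤ 1 → ‖n * z‖ ≤ 1 := fun n z hz => by
    rw [norm_mul]
    exact mul_le_one₀ (nint n) (norm_nonneg _) hz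
  have s : ‖x‖ ≤ 1 → ‖d * (2 * x + 10 * d)‖ < 1 := fun hx =>
    small_mul hD ((Padic.nonarchimedean _ _).trans (max_le (by simpa using c 2 x hx)
      (by simpa using c 10 d hD.le)))
  constructor
  · intro h1
    by_contra hx
    rw [not_le] at hx
    have x2 : ‖x ^ 2‖ < 1 := by rw [sq]; exact small_mul hx hx.le
    rcases h1 with h1 | h1 | h1
    · linarith
    · refine absurd h1 (not_le.2 (small_add ?_ (s hx.le)))
      rw [norm_neg, mul_comm]
      exact small_mul x2 (by simpa using nint 3)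
    · have e3 : ps d x = x ^ 2 * (4 : ℤ) * x + d * ((-4 : ℤ) * x ^ 2 + ((-40 : ℤ) * (d * x) +
          (-79 : ℤ) * (d * d))) := by
        unfold ps
        push_cast
        ring
      have h3 : ‖ps d x‖ < 1 := by
        rw [e3]
        refine small_add (small_mul (small_mul x2 (nint 4)) hx.le) (small_mul hD ?_)
        exact (Padic.nonarchimedean _ _).trans (max_le (c _ _ x2.le)
          ((Padic.nonarchimedean _ _).trans (max_le (c _ _ (small_mul hD hx.le).le)
            (c _ _ (small_mul hD hD.le).le))))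
      rw [← he, norm_pow] at h3
      nlinarith
  · intro hx
    rcases hx.lt_or_eq with h1 | h1
    · exact Or.inl h1
    · refine Or.inr (Or.inl ?_)
      have n3 : ‖(3 : ℚ_[11])‖ = 1 := by
        have := (Padic.norm_natCast_eq_one_iff (p := 11) (n := 3)).2 (by norm_num)
        simpa using this
      have h2 : ‖-(3 * x ^ 2)‖ = 1 := by rw [norm_neg, norm_mul, norm_pow, n3, ← h1]; simp
      have h3 := s h1.ge
      rw [Padic.add_eq_max_of_ne (by rw [h2]; exact h3.ne'), h2]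
      exact le_max_left _ _

theorem triple {D : ℤ} {e : PadicAlgCl 11} (he : ps (D : PadicAlgCl 11) e = 0)
    (P Q : Pt D ℚ_[11]) : ∃ z ∈ ℚ_[11]⟮e⟯, z ^ 2 = nu D e P * nu D e Q * nu D e (P + Q) := by
  have hm : ∀ P, nu D e P ∈ ℚ_[11]⟮e⟯ := by
    rintro (_ | ⟨x, y, h⟩)
    · exact one_mem _
    · exact sub_mem (IntermediateField.algebraMap_mem _ x)
        (IntermediateField.mem_adjoin_simple_self _ e)
  rcases P with _ | ⟨x₁, y₁, h₁⟩
  · refine ⟨_, hm Q, ?_⟩
    rw [← Affine.Point.zero_def, zero_add]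
    simp [nu, sq]
  rcases Q with _ | ⟨x₂, y₂, h₂⟩
  · refine ⟨_, hm (.some _ _ h₁), ?_⟩
    rw [← Affine.Point.zero_def, add_zero]
    simp [nu, sq]
  by_cases hxy : x₁ = x₂ ∧ y₁ = ((tw11 D)⁄ℚ_[11]).toAffine.negY x₂ y₂
  · refine ⟨_, hm (.some _ _ h₁), ?_⟩
    rw [Affine.Point.add_of_Y_eq hxy.1 hxy.2]
    simp [nu, sq, hxy.1]
  · obtain ⟨l, m, h⟩ := line h₁.1 h₂.1 hxy he
    rw [Affine.Point.add_some hxy]
    refine ⟨algebraMap _ _ l * e + algebraMap _ _ m + algebraMap ℚ_[11] _ (1 / 2), ?_, ?_⟩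
    · exact add_mem (add_mem (mul_mem (IntermediateField.algebraMap_mem _ l)
        (IntermediateField.mem_adjoin_simple_self _ e)) (IntermediateField.algebraMap_mem _ m))
        (IntermediateField.algebraMap_mem _ _)
    · simp only [nu, map_div₀, map_one, map_ofNat]
      linear_combination h / 4

end T11

open T11 in
theorem tam11_of (hL : L11) : TAM11 := by
  intro M hM
  obtain ⟨e, he, hn, ⟨x₀, hx₀, hx₀'⟩, hz⟩ := hL M hM
  set D : ℤ := -11 * M with hD
  let sg : Pt D ℚ_[11] → PadicAlgCl 11 := fun P => if Bad D P then -1 else 1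
  have h1 : ∀ P, ∃ z ∈ ℚ_[11]⟮e⟯, z ≠ 0 ∧ z ^ 2 = sg P * nu D e P := by
    rintro (_ | ⟨x, y, h⟩)
    · exact ⟨1, one_mem _, one_ne_zero, by simp [sg, Bad, nu]⟩
    · obtain ⟨hne, z, hz1, hz2⟩ := hz x y (eqn.1 h.1)
      have h2 : z ^ 2 = sg (.some _ _ h) * nu D e (.some _ _ h) := by
        rw [hz2]
        by_cases hx : ‖x‖ < 1
        · have : Bad D (.some _ _ h) := hx
          simp only [sg, nu, if_pos this, if_pos hx]
          ring
        · have : ¬ Bad D (.some _ _ h) := hx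
          simp only [sg, nu, if_neg this, if_neg hx]
          ring
      refine ⟨z, hz1, ?_, h2⟩
      rintro rfl
      rw [zero_pow two_ne_zero] at hz2
      split_ifs at hz2
      · exact hne (sub_eq_zero.1 hz2.symm).symm
      · exact hne (sub_eq_zero.1 hz2.symm)
  have sq1 : ∀ P, sg P * sg P = 1 := fun P => by
    simp only [sg]
    split_ifs <;> ring
  have h2 : ∀ P Q, sg P * sg Q * sg (P + Q) ≠ -1 := by
    intro P Q h
    obtain ⟨a, ha, ha0, ha2⟩ := h1 P
    obtain ⟨b, hb, hb0, hb2⟩ := h1 Q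
    obtain ⟨c, hc, hc0, hc2⟩ := h1 (P + Q)
    obtain ⟨z, hz1, hz2⟩ := triple he P Q
    refine hn (z / (a * b * c)) (div_mem hz1 (mul_mem (mul_mem ha hb) hc)) ?_
    rw [div_pow, div_eq_iff (pow_ne_zero 2 (mul_ne_zero (mul_ne_zero ha0 hb0) hc0)), mul_pow,
      mul_pow, ha2, hb2, hc2, hz2]
    linear_combination (nu D e P * nu D e Q * nu D e (P + Q)) * h
  have h3 : ∀ P Q, Bad D (P + Q) ↔ ¬ (Bad D P ↔ Bad D Q) := by
    intro P Q
    have := h2 P Q
    simp only [sg] at this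
    split_ifs at this <;> simp_all
  have h0 : ¬ Bad D 0 := fun h => h
  let H : AddSubgroup (Pt D ℚ_[11]) :=
    { carrier := {P | ¬ Bad D P}
      zero_mem' := h0
      add_mem' := fun {P Q} hP hQ => by
        simp only [Set.mem_ofPred_eq] at hP hQ ⊢
        rw [h3]
        tauto
      neg_mem' := fun {P} hP => by
        simp only [Set.mem_ofPred_eq] at hP ⊢
        have := h3 P (-P)
        rw [add_neg_cancel] at this
        tauto }
  have hH : {P : Pt D ℚ_[11] | NonsingularReduction (tw11 D) 11 P} = H := by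
    ext P
    exact ns_iff P
  have hT : ((tw11 D)⁄ℚ_[11]).toAffine.Nonsingular x₀ (-1 / 2) := by
    have hΔ : ((tw11 D)⁄ℚ_[11]).toAffine.Δ ≠ 0 := by
      have hM0 : (M : ℚ) ≠ 0 := by
        rintro h
        rw [Nat.cast_eq_zero.1 h] at hM
        norm_num at hM
      have : (tw11 D).Δ ≠ 0 := by
        have e1 : (tw11 D).Δ = -11 ^ 5 * (D : ℚ) ^ 6 := by
          simp only [tw11, Δ, b₂, b₄, b₆, b₈]
          ring
        rw [e1, hD]
        push_cast
        positivity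
      have e2 : ((tw11 D)⁄ℚ_[11]).toAffine.Δ = algebraMap ℚ ℚ_[11] (tw11 D).Δ := map_Δ _ _
      rw [e2]
      simpa using this
    rw [← Affine.equation_iff_nonsingular_of_Δ_ne_zero hΔ, eqn, hx₀]
    ring
  unfold tamagawa
  rw [hH, AddSubgroup.closure_eq, AddSubgroup.index_eq_two_iff]
  refine ⟨.some _ _ hT, fun b => ?_⟩
  have hb : Bad D (.some _ _ hT) := hx₀'
  change Xor (¬ Bad D _) (¬ Bad D b)
  rw [h3]
  unfold Xor
  tauto

end Vale.Agent.P014Y
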