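import Vale.Agent.P014Y.Sk
import Vale.Agent.P014Y.SkA
import Vale.Agent.P014Z.Ga

/-!
# P014Y: the assembly
-/

open WeierstrassCurve
open scoped NumberTheorySymbols
open Vale.Agent.P014
open Vale.Agent.P014Z (tw11 MIN FIN)

namespace Vale.Agent.P014Y

/-- the conclusion for one curve -/
def Concl (E : WeierstrassCurve ℚ) : Prop :=
  E.IsElliptic ∧ GlobalMinimal E ∧ Finite E.toAffine.Point ∧ Odd (torsionOrder E) ∧
    Nat.card (shaPrimary E 2) = 1 ∧ tamagawaProduct E = 2 ∧ (∃ L, IsHasseWeil E L) ∧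
    ∀ L, IsHasseWeil E L → L 1 ≠ 0 ∧ PPartRankZero E L 2

theorem delta (D : ℤ) : (tw11 D).Δ = -11 ^ 5 * (D : ℚ) ^ 6 := by
  simp only [tw11, Δ, b₂, b₄, b₆, b₈]
  ring

theorem Good.pos {M : ℕ} (h : Good M) : 0 < M := by
  have := h.2.1
  omega

theorem delta_ne {M : ℕ} (h : Good M) : (tw11 (-11 * M)).Δ ≠ 0 := by
  have h1 : (M : ℚ) ≠ 0 := by exact_mod_cast h.pos.ne'
  rw [delta]
  push_cast
  positivity

theorem tam_prod (hq : QR) (h0 : TAM0) (h1 : TAM11) {M : ℕ} (h : Good M) :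
    tamagawaProduct (tw11 (-11 * M)) = 2 := by
  unfold tamagawaProduct
  refine (finprod_eq_single _ (show Nat.Primes from ⟨11, by norm_num⟩) ?_).trans
    (h1 M (hq M h).2.1)
  intro p hp
  have : Fact (p : ℕ).Prime := ⟨p.2⟩
  exact h0 M p h fun e => hp (Subtype.ext e)

theorem sqf (hq : QR) {M : ℕ} (h : Good M) : Squarefree (-11 * M : ℤ) := by
  rw [← Int.squarefree_natAbs]
  have e : (-11 * M : ℤ).natAbs = 11 * M := by
    rw [Int.natAbs_mul]
    simp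
  have c : Nat.Coprime 11 M :=
    (Nat.Coprime.coprime_dvd_right (by norm_num : 11 ∣ 22) (hq M h).2.2).symm
  rw [e, Nat.squarefree_mul c]
  exact ⟨(by norm_num : Nat.Prime 11).squarefree, h.1⟩

theorem top (hq : QR) (h0 : TAM0) (h1 : TAM11) (hA : ANA) (hS : SHA) (hT : TWOD) (hM : MIN)
    (hF : FIN) (M : ℕ) (h : Good M) : Concl (tw11 (-11 * M)) := by
  have hΔ := delta_ne h
  obtain ⟨hfin, hodd⟩ := hF _ hΔ 2 Nat.prime_two fun P => by
    obtain ⟨Q, hQ⟩ := hT M h P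
    exact ⟨Q, by rw [two_nsmul, hQ]⟩
  obtain ⟨hL, hΩ, m, hm, hv⟩ := hA M h
  have ht := tam_prod hq h0 h1 h
  have hs := hS M h
  have ho : Odd (torsionOrder (tw11 (-11 * M))) :=
    Nat.odd_iff.2 (by omega)
  have h4 := h.2.1
  refine ⟨⟨isUnit_iff_ne_zero.2 hΔ⟩, hM _ (sqf hq h) (by omega), hfin, ho, hs, ht, hL,
    fun L hl => ?_⟩
  have m0 : m ≠ 0 := by omega
  have t0 : torsionOrder (tw11 (-11 * M)) ≠ 0 := fun e => hodd (e ▸ dvd_zero 2)
  set t := torsionOrder (tw11 (-11 * M)) with htd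
  obtain ⟨k, hk⟩ : ∃ k : ℤ, m = 2 * k := ⟨m / 2, by omega⟩
  have k0 : k ≠ 0 := by omega
  refine ⟨?_, (k * t ^ 2 : ℤ), ?_, ?_, ?_⟩
  · rw [hv L hl]
    exact mul_ne_zero (by exact_mod_cast m0) (by exact_mod_cast hΩ.ne')
  · exact Int.cast_ne_zero.2 (mul_ne_zero k0 (pow_ne_zero 2 (Int.natCast_ne_zero.2 t0)))
  · rw [padicValRat.of_int, Nat.cast_eq_zero, padicValInt.eq_zero_iff]
    refine Or.inr (Or.inr fun hd => ?_)
    rcases Int.prime_two.dvd_or_dvd hd with h2 | h2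
    · omega
    · have h3 := Int.prime_two.dvd_of_dvd_pow h2
      omega
  · rw [hv L hl, hs, ht, ← htd, hk]
    have t1 : (t : ℂ) ≠ 0 := by exact_mod_cast t0
    push_cast
    field_simp

end Vale.Agent.P014Y
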